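import Vale.Agent.Q113.Defs

/-!
# P113: the data of the construction

A Turing machine is simulated by a rewriting system on two stacks of digits; every rule has the
form `(p ++ X, Y) ↦ (u ++ Y, v ++ X)`.  The top digit of the first stack is a control digit.
One step of the system is carried out by four shears of the torus.
-/

namespace Vale.Agent.Q113

/-! ### The rewriting system -/

/-- Digits `< kk` are tape symbols, digits in `[kk, 2 kk)` are garbage (and controls). -/
def kk (M : Machine) : ℕ := M.2.1 + 6 * M.1 + 2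

/-- The base. -/
def bb (M : Machine) : ℕ := 4 * kk M

/-- The number of windows. -/
def nn (M : Machine) : ℕ := bb M ^ 4

/-- The value of a stack in base `B` (the top digit is the most significant one). -/
def val (B : ℕ) (L : List ℕ) : ℚ := L.foldr (fun d r => ((d : ℚ) + r) / (B : ℚ)) 0

/-- The number formed by the four top digits (missing digits are `0`). -/
def pre (B : ℕ) (X : List ℕ) : ℕ :=
  ((X.getD 0 0 * B + X.getD 1 0) * B + X.getD 2 0) * B + X.getD 3 0

/-- The control digit of kind `kind` (`0`: swap, `1`, `2`: work), state `q`, side `d`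
(`1`: the head cell is the first tape symbol of the right stack, `0`: of the left stack). -/
def ctl (M : Machine) (kind q d : ℕ) : ℕ := kk M + 6 * q + 2 * kind + d

/-- The state of a control digit. -/
def cq (M : Machine) (c : ℕ) : ℕ := (c - kk M) / 6

/-- The kind of a control digit. -/
def ck (M : Machine) (c : ℕ) : ℕ := (c - kk M) % 6 / 2

/-- The side of a control digit. -/
def cd (M : Machine) (c : ℕ) : ℕ := (c - kk M) % 2

/-- The record of a work rule: three garbage digits that determine `c` and `s`. -/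
def rcd (M : Machine) (c s : ℕ) : List ℕ := [c, kk M + s / kk M, kk M + s % kk M]

/-- The source word of the rule `j = c * bb + s`. -/
def pw (M : Machine) (j : ℕ) : List ℕ :=
  if ck M (j / bb M) = 0 then [j / bb M] else [j / bb M, j % bb M]

/-- The word pushed on the new first stack by the rule `j = c * bb + s`. -/
def uw (M : Machine) (j : ℕ) : List ℕ :=
  if ck M (j / bb M) = 0 then [j / bb M + 4]
  else if kk M ≤ j % bb M then
    ctl M 0 (cq M (j / bb M)) (cd M (j / bb M)) :: rcd M (j / bb M) (j % bb M)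
  else if (M.entry (cq M (j / bb M)) (j % bb M)).2.2 = 2 * (cd M (j / bb M) : ℤ) - 1 then
    ctl M 0 (M.entry (cq M (j / bb M)) (j % bb M)).1 (cd M (j / bb M)) ::
      (rcd M (j / bb M) (j % bb M) ++ [(M.entry (cq M (j / bb M)) (j % bb M)).2.1])
  else if (M.entry (cq M (j / bb M)) (j % bb M)).2.2 = 0 then
    ctl M 0 (M.entry (cq M (j / bb M)) (j % bb M)).1 (cd M (j / bb M)) ::
      rcd M (j / bb M) (j % bb M)
  else
    ctl M 1 (M.entry (cq M (j / bb M)) (j % bb M)).1 (1 - cd M (j / bb M)) ::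
      rcd M (j / bb M) (j % bb M)

/-- The word pushed on the new second stack by the rule `j = c * bb + s`. -/
def vw (M : Machine) (j : ℕ) : List ℕ :=
  if ck M (j / bb M) = 0 then []
  else if kk M ≤ j % bb M then []
  else if (M.entry (cq M (j / bb M)) (j % bb M)).2.2 = 2 * (cd M (j / bb M) : ℤ) - 1 then []
  else [(M.entry (cq M (j / bb M)) (j % bb M)).2.1]

/-- The rule that applies when the four top digits form `a`. -/
def lev (M : Machine) (a : ℕ) : ℕ :=
  if ck M (a / bb M ^ 3) = 0 then a / bb M ^ 3 * bb M else a / bb M ^ 2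

/-- The state of the control digit is halting. -/
def hlt (M : Machine) (a : ℕ) : Bool := decide (cq M (a / bb M ^ 3) ∈ M.2.2.2.1)

/-- The rule that has just been applied when the four top digits form `a`. -/
def inv (M : Machine) (a : ℕ) : ℕ :=
  if ck M (a / bb M ^ 3) = 2 then (a / bb M ^ 3 - 4) * bb M
  else a / bb M ^ 2 % bb M * bb M + ((a / bb M % bb M - kk M) * kk M + (a % bb M - kk M))

/-- One step of the rewriting system. -/
def mstep (M : Machine) (c : List ℕ × List ℕ) : List ℕ × List ℕ :=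
  (uw M (lev M (pre (bb M) c.1)) ++ c.2,
    vw M (lev M (pre (bb M) c.1)) ++ c.1.drop (pw M (lev M (pre (bb M) c.1))).length)

/-- The first stack at the start. -/
def start (M : Machine) (w : List ℕ) : List ℕ := ctl M 1 M.2.2.1 1 :: w

/-- The configuration after `t` steps. -/
def cfg (M : Machine) (w : List ℕ) (t : ℕ) : List ℕ × List ℕ := (mstep M)^[t] (start M w, [])

/-- The rule `j` acts by `x' = cA j + cB j * y`, `y' = cC j + cD j * x`. -/
def cA (M : Machine) (j : ℕ) : ℚ := val (bb M) (uw M j)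

def cB (M : Machine) (j : ℕ) : ℚ := 1 / (bb M : ℚ) ^ (uw M j).length

def cD (M : Machine) (j : ℕ) : ℚ := (bb M : ℚ) ^ (pw M j).length / (bb M : ℚ) ^ (vw M j).length

def cC (M : Machine) (j : ℕ) : ℚ := val (bb M) (vw M j) - cD M j * val (bb M) (pw M j)

/-- The two coordinates of the configuration after `t` steps, and its window. -/
def xs (M : Machine) (w : List ℕ) (t : ℕ) : ℚ := val (bb M) (cfg M w t).1

def ys (M : Machine) (w : List ℕ) (t : ℕ) : ℚ := val (bb M) (cfg M w t).2

def ws (M : Machine) (w : List ℕ) (t : ℕ) : ℕ := pre (bb M) (cfg M w t).1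

/-- The point after `t` steps lies in its window. -/
def Loc (M : Machine) (w : List ℕ) (t : ℕ) : Prop :=
  0 ≤ xs M w t ∧ xs M w t ≤ 1 / 2 ∧ 0 ≤ ys M w t ∧ ys M w t ≤ 1 / 2 ∧ ws M w t < nn M ∧
    0 ≤ (nn M : ℚ) * xs M w t - ws M w t ∧ (nn M : ℚ) * xs M w t - ws M w t ≤ 1 / 2

/-- The step from `t` to `t + 1` is the affine map of the rule, and the rule can be read off from
the new window. -/
def Stp (M : Machine) (w : List ℕ) (t : ℕ) : Prop :=
  lev M (ws M w t) < nn M ∧
    xs M w (t + 1) = cA M (lev M (ws M w t)) + cB M (lev M (ws M w t)) * ys M w t ∧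
    ys M w (t + 1) = cC M (lev M (ws M w t)) + cD M (lev M (ws M w t)) * xs M w t ∧
    inv M (ws M w (t + 1)) = lev M (ws M w t)

/-! ### The shears -/

/-- The unit of length. -/
def lam (M : Machine) : ℚ := 1 / (8 * (nn M : ℚ))

/-- The bump `s ↦ s^k π_4(4 (s/σ - a) + 1)`; it is `κ s^k` when `s/σ - a ∈ [0, 1/2]`. -/
def W (σ : ℚ) (a k : ℕ) : Bump := (Sum.inr 4, k, 4 / σ, 4 * (a : ℚ) - 1)

/-- The time bump `t ↦ ρ(10 t - (2 w + 1))` of the window `(w/5, (w+1)/5)`. -/
def th (w : ℕ) : Bump := (Sum.inl 0, 0, 10, 2 * (w : ℚ) + 1)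

/-- The term `q (10/κ) P[th w](t) (P[g₁](x_ip)/κ) (P[g₂](x_ir)/κ)`. -/
def mono (w : ℕ) (ip ir : Fin 3) (q : ℚ) (g₁ g₂ : Bump) : Term :=
  (10 * q, 0, -3, [], [(true, th w)],
    fun i => if i = ip then [g₁] else if i = ir then [g₂] else [])

/-- The terms of one stage. -/
def stage (w : ℕ) (ip ir : Fin 3) (N : ℕ) (σ l : ℚ) (co : ℕ → ℚ × ℚ × ℚ) : List Term :=
  (List.range N).flatMap fun a =>
    [mono w ip ir (co a).1 (W σ a 0) (W l 0 0), mono w ip ir (co a).2.1 (W σ a 1) (W l 0 0),
      mono w ip ir (co a).2.2 (W σ a 0) (W l 0 1)]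

def co1 (M : Machine) (a : ℕ) : ℚ × ℚ × ℚ :=
  (if hlt M a = true then 1 / 2 else lam M * (lev M a : ℚ), 1, 0)

def co2 (M : Machine) (j : ℕ) : ℚ × ℚ × ℚ := (lam M * ((j : ℚ) + cA M j), -1, cB M j)

def co3 (M : Machine) (j : ℕ) : ℚ × ℚ × ℚ :=
  (lam M * (cC M j - cD M j * (j : ℚ) + cA M j / cB M j), cD M j, -1 / cB M j)

def co4 (M : Machine) (a : ℕ) : ℚ × ℚ × ℚ :=
  (lam M * (cC M (inv M a) / cD M (inv M a) - (inv M a : ℚ)), 0, -1 / cD M (inv M a))

/-- The periodic part of the velocity. -/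
def Uper (M : Machine) : Fin 3 → List Term :=
  ![stage 2 2 1 (nn M) (lam M) (lam M) (co2 M), stage 3 2 0 (nn M) (lam M) (lam M) (co3 M),
    stage 1 0 1 (nn M) (lam M / nn M) (lam M) (co1 M) ++
      stage 4 0 1 (nn M) (lam M / nn M) (lam M) (co4 M)]

/-- The term `q (10/κ) ρ(10 t - 1)`. -/
def ini (q : ℚ) : Term := (10 * q, 0, -1, [], [(false, th 0)], fun _ => [])

/-- The part of the velocity that loads the input. -/
def Uini (M : Machine) (w : List ℕ) : Fin 3 → List Term :=
  ![[ini (lam M * val (bb M) (start M w))], [], []]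

/-- The velocity. -/
def vel (c : Machine × List ℕ) (j : Fin 3) : List Term := Uper c.1 j ++ Uini c.1 c.2 j

/-! ### The shears as functions -/

noncomputable section

/-- The selector `P[W σ a k] / κ`. -/
def sel (σ : ℚ) (a k : ℕ) (s : ℝ) : ℝ := per (W σ a k).ev s / kappa

/-- The spatial profile of a stage. -/
def spat (ip ir : Fin 3) (N : ℕ) (σ l : ℚ) (co : ℕ → ℚ × ℚ × ℚ) (x : V) : ℝ :=
  ∑ a ∈ Finset.range N, ((co a).1 * sel σ a 0 (x ip) * sel l 0 0 (x ir) +
    (co a).2.1 * sel σ a 1 (x ip) * sel l 0 0 (x ir) +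
    (co a).2.2 * sel σ a 0 (x ip) * sel l 0 1 (x ir))

/-- The direction of the shear in the time window `[k/5, (k+1)/5]`. -/
def dir (k : ℕ) : Fin 3 := if k % 5 = 1 ∨ k % 5 = 4 then 2 else if k % 5 = 3 then 1 else 0

/-- The profile of the shear in the time window `[k/5, (k+1)/5]`. -/
def phi (M : Machine) (w : List ℕ) (k : ℕ) (x : V) : ℝ :=
  if k % 5 = 1 then spat 0 1 (nn M) (lam M / nn M) (lam M) (co1 M) x
  else if k % 5 = 2 then spat 2 1 (nn M) (lam M) (lam M) (co2 M) x
  else if k % 5 = 3 then spat 2 0 (nn M) (lam M) (lam M) (co3 M) x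
  else if k % 5 = 4 then spat 0 1 (nn M) (lam M / nn M) (lam M) (co4 M) x
  else if k = 0 then ((lam M * val (bb M) (start M w) : ℚ) : ℝ) else 0

end

end Vale.Agent.Q113
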