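import Vale.Agent.Q113.Defs

/-!
# P113: calculus of `ρ`, `σ`, `π_ℓ`, bumps and periodizations
-/

noncomputable section

namespace Vale.Agent.Q113

open MeasureTheory Set Filter Topology
open scoped ContDiff

/-! ### `ρ`, `κ`, `σ`, `π_ℓ` -/

theorem rho_eq : rho = fun s => expNegInvGlue (1 - s ^ 2) := by
  funext s
  unfold rho expNegInvGlue
  by_cases h : |s| < 1
  · have h2 : ¬ (1 - s ^ 2 ≤ 0) := by
      have : s ^ 2 < 1 := by rwa [← sq_abs, sq_lt_one_iff₀ (abs_nonneg s)]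
      linarith
    rw [if_pos h, if_neg h2]
    congr 1
    rw [neg_div, one_div]
  · have h2 : 1 - s ^ 2 ≤ 0 := by
      have h1 : 1 ≤ |s| := not_lt.1 h
      have : 1 ≤ s ^ 2 := by rw [← sq_abs]; nlinarith
      linarith
    rw [if_neg h, if_pos h2]

theorem rho_contDiff : ContDiff ℝ ∞ rho := by
  rw [rho_eq]
  exact expNegInvGlue.contDiff.comp (by fun_prop)

theorem rho_continuous : Continuous rho := rho_contDiff.continuous

theorem rho_nonneg (s : ℝ) : 0 ≤ rho s := by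
  rw [rho_eq]; exact expNegInvGlue.nonneg _

theorem rho_of_le_abs {s : ℝ} (h : 1 ≤ |s|) : rho s = 0 := if_neg (not_lt.2 h)

theorem rho_of_le {s : ℝ} (h : s ≤ -1) : rho s = 0 :=
  rho_of_le_abs (by rw [abs_of_nonpos (by linarith)]; linarith)

theorem rho_of_ge {s : ℝ} (h : 1 ≤ s) : rho s = 0 :=
  rho_of_le_abs (by rw [abs_of_nonneg (by linarith)]; exact h)

theorem rho_pos {s : ℝ} (h : |s| < 1) : 0 < rho s := by
  unfold rho; rw [if_pos h]; exact Real.exp_pos _

theorem rho_compact : HasCompactSupport rho := by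
  refine HasCompactSupport.intro (isCompact_Icc (a := (-1 : ℝ)) (b := 1)) fun s hs => ?_
  rw [mem_Icc, not_and_or, not_le, not_le] at hs
  rcases hs with hs | hs
  · exact rho_of_le hs.le
  · exact rho_of_ge hs.le

theorem rho_integrable : Integrable rho := rho_continuous.integrable_of_hasCompactSupport rho_compact

theorem kappa_pos : 0 < kappa :=
  rho_continuous.integral_pos_of_hasCompactSupport_nonneg_nonzero rho_compact rho_nonneg
    (x := 0) (rho_pos (by simp)).ne'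

theorem kappa_ne : kappa ≠ 0 := kappa_pos.ne'

theorem sigma_of_le {s : ℝ} (h : s ≤ -1) : sigma s = 0 :=
  setIntegral_eq_zero_of_forall_eq_zero fun _ hr => rho_of_le (le_trans hr h)

theorem sigma_of_ge {s : ℝ} (h : 1 ≤ s) : sigma s = kappa :=
  setIntegral_eq_integral_of_forall_compl_eq_zero fun _ hr =>
    rho_of_ge (h.trans (not_le.1 hr).le)

theorem sigma_eq (s : ℝ) : sigma s = ∫ r in (-1 : ℝ)..s, rho r := by
  rw [← intervalIntegral.integral_Iic_sub_Iic rho_integrable.integrableOn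
    rho_integrable.integrableOn]
  have : ∫ r in Iic (-1 : ℝ), rho r = 0 := sigma_of_le le_rfl
  rw [this, sub_zero]; rfl

theorem sigma_hasDerivAt (s : ℝ) : HasDerivAt sigma (rho s) s := by
  have : sigma = fun s => ∫ r in (-1 : ℝ)..s, rho r := funext sigma_eq
  rw [this]
  exact (rho_continuous.integral_hasStrictDerivAt _ _).hasDerivAt

theorem deriv_sigma : deriv sigma = rho := funext fun s => (sigma_hasDerivAt s).deriv

theorem sigma_contDiff : ContDiff ℝ ∞ sigma := by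
  rw [contDiff_infty_iff_deriv, deriv_sigma]
  exact ⟨fun s => (sigma_hasDerivAt s).differentiableAt, rho_contDiff⟩

theorem sigma_monotone : Monotone sigma :=
  monotone_of_deriv_nonneg (fun s => (sigma_hasDerivAt s).differentiableAt) fun s => by
    rw [deriv_sigma]; exact rho_nonneg s

theorem sigma_nonneg (s : ℝ) : 0 ≤ sigma s := by
  rcases le_total s (-1) with h | h
  · rw [sigma_of_le h]
  · rw [← sigma_of_le (le_refl (-1 : ℝ))]; exact sigma_monotone h

theorem sigma_le (s : ℝ) : sigma s ≤ kappa := by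
  rcases le_total s 1 with h | h
  · rw [← sigma_of_ge (le_refl (1 : ℝ))]; exact sigma_monotone h
  · rw [sigma_of_ge h]

theorem plat_hasDerivAt (l s : ℝ) : HasDerivAt (plat l) (rho s - rho (s - l)) s := by
  have h := (sigma_hasDerivAt s).sub ((sigma_hasDerivAt (s - l)).comp_sub_const s l)
  exact h

theorem plat_contDiff (l : ℝ) : ContDiff ℝ ∞ (plat l) :=
  sigma_contDiff.sub (sigma_contDiff.comp (by fun_prop))

theorem plat_of_le {l s : ℝ} (hl : 0 ≤ l) (h : s ≤ -1) : plat l s = 0 := by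
  unfold plat; rw [sigma_of_le h, sigma_of_le (by linarith), sub_zero]

theorem plat_of_ge {l s : ℝ} (hl : 0 ≤ l) (h : l + 1 ≤ s) : plat l s = 0 := by
  unfold plat; rw [sigma_of_ge (by linarith), sigma_of_ge (by linarith), sub_self]

theorem plat_of_mem {l s : ℝ} (h1 : 1 ≤ s) (h2 : s ≤ l - 1) : plat l s = kappa := by
  unfold plat; rw [sigma_of_ge h1, sigma_of_le (by linarith), sub_zero]

theorem plat_nonneg {l : ℝ} (hl : 0 ≤ l) (s : ℝ) : 0 ≤ plat l s :=
  sub_nonneg.2 (sigma_monotone (by linarith))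

theorem plat_le (l s : ℝ) : plat l s ≤ kappa := by
  unfold plat; linarith [sigma_le s, sigma_nonneg (s - l)]

theorem drho_contDiff (j : ℕ) : ContDiff ℝ ∞ (iteratedDeriv j rho) := by
  rw [iteratedDeriv_eq_iterate]; exact rho_contDiff.iterate_deriv j

theorem drho_hasDerivAt (j : ℕ) (s : ℝ) :
    HasDerivAt (iteratedDeriv j rho) (iteratedDeriv (j + 1) rho s) s := by
  rw [iteratedDeriv_succ]
  exact ((drho_contDiff j).differentiable (by simp) s).hasDerivAt

theorem drho_of_lt_abs (j : ℕ) {s : ℝ} (h : 1 < |s|) : iteratedDeriv j rho s = 0 := by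
  have ho : IsOpen {s : ℝ | 1 < |s|} := isOpen_lt continuous_const continuous_abs
  have h0 : rho =ᶠ[𝓝 s] fun _ => 0 :=
    Filter.eventually_of_mem (ho.mem_nhds h) fun r hr => rho_of_le_abs (le_of_lt hr)
  rw [h0.iteratedDeriv_eq]
  simp

theorem drho_of_le_abs (j : ℕ) {s : ℝ} (h : 1 ≤ |s|) : iteratedDeriv j rho s = 0 := by
  have hc : IsClosed {s : ℝ | iteratedDeriv j rho s = 0} :=
    isClosed_eq (drho_contDiff j).continuous continuous_const
  rcases le_abs.1 h with h1 | h1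
  · have : Ici (1 : ℝ) ⊆ {s : ℝ | iteratedDeriv j rho s = 0} := by
      rw [← closure_Ioi]
      exact hc.closure_subset_iff.2 fun r hr => drho_of_lt_abs j (lt_abs.2 (Or.inl hr))
    exact this h1
  · have : Iic (-1 : ℝ) ⊆ {s : ℝ | iteratedDeriv j rho s = 0} := by
      rw [← closure_Iio]
      exact hc.closure_subset_iff.2 fun r hr =>
        drho_of_lt_abs j (lt_abs.2 (Or.inr (by have : r < -1 := hr; linarith)))
    exact this (show s ≤ -1 by linarith)

/-! ### Periodization -/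

/-- Bounded support. -/
def CS (g : ℝ → ℝ) : Prop := ∃ R : ℝ, ∀ s, R < |s| → g s = 0

theorem per_eq_sum {g : ℝ → ℝ} {R y : ℝ} {N : ℕ} (hg : ∀ s, R < |s| → g s = 0)
    (hy : |y| + R < N) : per g y = ∑ m ∈ Finset.Icc (-N : ℤ) N, g (y + m) := by
  refine tsum_eq_sum fun m hm => hg _ ?_
  rw [Finset.mem_Icc, ← abs_le, not_le] at hm
  have h1 : (N : ℝ) < |(m : ℝ)| := by exact_mod_cast hm
  have h2 : |(m : ℝ)| ≤ |y + m| + |y| := by
    have := abs_sub (y + m) y
    rwa [add_sub_cancel_left] at this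
  linarith

theorem CS.summable {g : ℝ → ℝ} (hg : CS g) (y : ℝ) : Summable fun m : ℤ => g (y + m) := by
  obtain ⟨R, hR⟩ := hg
  obtain ⟨N, hN⟩ := exists_nat_gt (|y| + R)
  refine summable_of_ne_finset_zero (s := Finset.Icc (-N : ℤ) N) fun m hm => hR _ ?_
  rw [Finset.mem_Icc, ← abs_le, not_le] at hm
  have h1 : (N : ℝ) < |(m : ℝ)| := by exact_mod_cast hm
  have h2 : |(m : ℝ)| ≤ |y + m| + |y| := by
    have := abs_sub (y + m) y
    rwa [add_sub_cancel_left] at this
  linarith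

theorem per_eventually {g : ℝ → ℝ} {R y : ℝ} {N : ℕ} (hg : ∀ s, R < |s| → g s = 0)
    (hy : |y| + R < N) :
    per g =ᶠ[𝓝 y] fun z => ∑ m ∈ Finset.Icc (-N : ℤ) N, g (z + m) := by
  have ho : IsOpen {z : ℝ | |z| + R < N} := isOpen_lt (by fun_prop) continuous_const
  exact Filter.eventually_of_mem (ho.mem_nhds hy) fun z hz => per_eq_sum hg hz

theorem per_contDiff {g : ℝ → ℝ} (hc : CS g) (hg : ContDiff ℝ ∞ g) : ContDiff ℝ ∞ (per g) := by
  obtain ⟨R, hR⟩ := hc
  refine contDiff_iff_contDiffAt.2 fun y => ?_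
  obtain ⟨N, hN⟩ := exists_nat_gt (|y| + R)
  refine ContDiffAt.congr_of_eventuallyEq ?_ (per_eventually hR hN)
  refine ContDiff.contDiffAt ?_
  exact ContDiff.sum fun m _ => hg.comp (by fun_prop)

theorem per_hasDerivAt {g g' : ℝ → ℝ} (hc : CS g) (hc' : CS g')
    (hg : ∀ s, HasDerivAt g (g' s) s) (y : ℝ) : HasDerivAt (per g) (per g' y) y := by
  obtain ⟨R, hR⟩ := hc
  obtain ⟨R', hR'⟩ := hc'
  obtain ⟨N, hN⟩ := exists_nat_gt (|y| + max R R')
  have h1 : |y| + R < N := lt_of_le_of_lt (by gcongr; exact le_max_left _ _) hN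
  have h2 : |y| + R' < N := lt_of_le_of_lt (by gcongr; exact le_max_right _ _) hN
  refine HasDerivAt.congr_of_eventuallyEq ?_ (per_eventually hR h1)
  rw [per_eq_sum hR' h2]
  exact HasDerivAt.fun_sum fun m _ => (hg (y + m)).comp_add_const y m

theorem per_add_int (g : ℝ → ℝ) (y : ℝ) (k : ℤ) : per g (y + k) = per g y := by
  unfold per
  rw [← (Equiv.addLeft k).tsum_eq fun m : ℤ => g (y + m)]
  refine tsum_congr fun m => ?_
  simp [add_assoc]

theorem per_add_nat (g : ℝ → ℝ) (y : ℝ) (k : ℕ) : per g (y + k) = per g y := by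
  simpa using per_add_int g y k

/-- If `g` vanishes outside `(c, c + 1)`, its periodization is `g` on `[c, c + 1]`. -/
theorem per_eq_self {g : ℝ → ℝ} {c y : ℝ} (h0 : ∀ s, s ≤ c → g s = 0)
    (h1 : ∀ s, c + 1 ≤ s → g s = 0) (hy0 : c ≤ y) (hy1 : y ≤ c + 1) : per g y = g y := by
  unfold per
  rw [tsum_eq_single 0]
  · simp
  · intro m hm
    rcases lt_or_gt_of_ne hm with h | h
    · have : (m : ℝ) ≤ -1 := by exact_mod_cast (show m ≤ -1 by omega)
      exact h0 _ (by linarith)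
    · have : (1 : ℝ) ≤ m := by exact_mod_cast (show 1 ≤ m by omega)
      exact h1 _ (by linarith)

theorem CS.mul_left {g : ℝ → ℝ} (hg : CS g) (f : ℝ → ℝ) : CS fun s => f s * g s := by
  obtain ⟨R, hR⟩ := hg
  exact ⟨R, fun s hs => by simp [hR s hs]⟩

theorem CS.add {f g : ℝ → ℝ} (hf : CS f) (hg : CS g) : CS fun s => f s + g s := by
  obtain ⟨R, hR⟩ := hf
  obtain ⟨R', hR'⟩ := hg
  exact ⟨max R R', fun s hs => by
    simp [hR s ((le_max_left _ _).trans_lt hs), hR' s ((le_max_right _ _).trans_lt hs)]⟩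

theorem CS.zero : CS fun _ => 0 := ⟨0, fun _ _ => rfl⟩

theorem CS.affine {g : ℝ → ℝ} (hg : CS g) {a : ℝ} (ha : a ≠ 0) (b : ℝ) :
    CS fun s => g (a * s - b) := by
  obtain ⟨R, hR⟩ := hg
  refine ⟨(R + |b|) / |a|, fun s hs => hR _ ?_⟩
  rw [div_lt_iff₀ (abs_pos.2 ha), ← abs_mul, mul_comm] at hs
  have := abs_add_le (a * s - b) b
  rw [sub_add_cancel] at this
  linarith

theorem drho_CS (j : ℕ) : CS (iteratedDeriv j rho) := ⟨1, fun _ hs => drho_of_lt_abs j hs⟩

theorem plat_CS {l : ℝ} (hl : 0 ≤ l) : CS (plat l) := by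
  refine ⟨l + 1, fun s hs => ?_⟩
  rcases lt_abs.1 hs with h | h
  · exact plat_of_ge hl h.le
  · exact plat_of_le hl (by linarith)

theorem per_lincomb {α : Type} (e : α → ℝ → ℝ) (L : List (ℚ × α)) (hL : ∀ p ∈ L, CS (e p.2)) :
    CS (fun s => (L.map fun p => (p.1 : ℝ) * e p.2 s).sum) ∧
      ∀ y, per (fun s => (L.map fun p => (p.1 : ℝ) * e p.2 s).sum) y =
        (L.map fun p => (p.1 : ℝ) * per (e p.2) y).sum := by
  induction L with
  | nil => exact ⟨by simpa using CS.zero, fun y => by simp [per]⟩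
  | cons p L ih =>
    obtain ⟨h1, h2⟩ := ih fun q hq => hL q (List.mem_cons_of_mem _ hq)
    have hp : CS (e p.2) := hL p List.mem_cons_self
    have hp' : CS fun s => (p.1 : ℝ) * e p.2 s := hp.mul_left fun _ => p.1
    refine ⟨by simpa using hp'.add h1, fun y => ?_⟩
    simp only [List.map_cons, List.sum_cons]
    rw [← h2 y]
    unfold per
    rw [(hp'.summable y).tsum_add (h1.summable y), tsum_mul_left]

/-! ### Bumps -/

theorem Bump.contDiff (g : Bump) : ContDiff ℝ ∞ g.ev := by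
  obtain ⟨j | l, k, a, b⟩ := g
  · exact (contDiff_id.pow k).mul ((drho_contDiff j).comp (by fun_prop))
  · exact (contDiff_id.pow k).mul ((plat_contDiff l).comp (by fun_prop))

theorem Bump.Ok.cs {g : Bump} (hg : g.Ok) : CS g.ev := by
  obtain ⟨j | l, k, a, b⟩ := g
  · have ha : (a : ℝ) ≠ 0 := by exact_mod_cast hg
    exact ((drho_CS j).affine ha b).mul_left fun s => s ^ k
  · have ha : (a : ℝ) ≠ 0 := by exact_mod_cast hg.1
    have hl : (0 : ℝ) ≤ l := by exact_mod_cast hg.2.le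
    exact ((plat_CS hl).affine ha b).mul_left fun s => s ^ k

theorem Bump.Ok.per_contDiff {g : Bump} (hg : g.Ok) : ContDiff ℝ ∞ (per g.ev) :=
  Q113.per_contDiff hg.cs g.contDiff

/-- The derivative of a bump, as a rational combination of bumps. -/
def Bump.D (g : Bump) : List (ℚ × Bump) :=
  ((g.2.1 : ℚ), (g.1, g.2.1 - 1, g.2.2)) ::
    Sum.elim (fun j => [(g.2.2.1, (Sum.inl (j + 1), g.2))])
      (fun l => [(g.2.2.1, (Sum.inl 0, g.2)),
        (-g.2.2.1, (Sum.inl 0, g.2.1, g.2.2.1, g.2.2.2 + l))]) g.1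

theorem Bump.hasDerivAt (g : Bump) (s : ℝ) :
    HasDerivAt g.ev ((g.D.map fun p => (p.1 : ℝ) * p.2.ev s).sum) s := by
  obtain ⟨j | l, k, a, b⟩ := g
  · have h1 : HasDerivAt (fun s : ℝ => (a : ℝ) * s - b) a s := by
      simpa using ((hasDerivAt_id s).const_mul (a : ℝ)).sub_const (b : ℝ)
    have h2 := (hasDerivAt_pow k s).mul ((drho_hasDerivAt j (a * s - b)).comp s h1)
    refine h2.congr_deriv ?_
    simp [Bump.D, Bump.ev]
    ring
  · have h1 : HasDerivAt (fun s : ℝ => (a : ℝ) * s - b) a s := by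
      simpa using ((hasDerivAt_id s).const_mul (a : ℝ)).sub_const (b : ℝ)
    have h2 := (hasDerivAt_pow k s).mul ((plat_hasDerivAt l (a * s - b)).comp s h1)
    refine h2.congr_deriv ?_
    simp [Bump.D, Bump.ev, sub_add_eq_sub_sub]
    ring

theorem Bump.Ok.D {g : Bump} (hg : g.Ok) : ∀ p ∈ g.D, p.2.Ok := by
  obtain ⟨j | l, k, a, b⟩ := g
  · simpa [Bump.D, Bump.Ok] using hg
  · have : a ≠ 0 ∧ 0 < l := hg
    simp [Bump.D, Bump.Ok, this.1, this.2]

theorem Bump.Ok.per_hasDerivAt {g : Bump} (hg : g.Ok) (s : ℝ) :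
    HasDerivAt (per g.ev) ((g.D.map fun p => (p.1 : ℝ) * per p.2.ev s).sum) s := by
  obtain ⟨h1, h2⟩ := per_lincomb Bump.ev g.D fun p hp => (hg.D p hp).cs
  rw [← h2]
  exact Q113.per_hasDerivAt hg.cs h1 g.hasDerivAt s

/-- A condition on the data of a bump which makes it vanish on `[T, ∞)`. -/
def Bump.Late (T : ℚ) (g : Bump) : Prop :=
  0 < g.2.2.1 ∧ 0 ≤ Sum.elim (fun _ => (0 : ℚ)) id g.1 ∧
    g.2.2.2 + Sum.elim (fun _ => (0 : ℚ)) id g.1 + 1 ≤ g.2.2.1 * T

theorem Bump.Late.D {T : ℚ} {g : Bump} (hg : g.Late T) : ∀ p ∈ g.D, p.2.Late T := by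
  obtain ⟨j | l, k, a, b⟩ := g
  · simpa [Bump.D, Bump.Late] using hg
  · obtain ⟨h1, h2, h3⟩ : 0 < a ∧ 0 ≤ l ∧ b + l + 1 ≤ a * T := hg
    simp [Bump.D, Bump.Late, h1, h2, h3]
    linarith

theorem Bump.Late.ev {T : ℚ} {g : Bump} (hg : g.Late T) {t : ℝ} (ht : (T : ℝ) ≤ t) :
    g.ev t = 0 := by
  obtain ⟨j | l, k, a, b⟩ := g
  · obtain ⟨h1, -, h3⟩ : 0 < a ∧ (0 : ℚ) ≤ 0 ∧ b + 0 + 1 ≤ a * T := hg
    have h1' : (0 : ℝ) < a := by exact_mod_cast h1
    have h3' : (b : ℝ) + 0 + 1 ≤ a * T := by exact_mod_cast h3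
    have : 1 ≤ |(a : ℝ) * t - b| := le_abs.2 (Or.inl (by nlinarith))
    simp [Bump.ev, drho_of_le_abs j this]
  · obtain ⟨h1, h2, h3⟩ : 0 < a ∧ 0 ≤ l ∧ b + l + 1 ≤ a * T := hg
    have h1' : (0 : ℝ) < a := by exact_mod_cast h1
    have h2' : (0 : ℝ) ≤ l := by exact_mod_cast h2
    have h3' : (b : ℝ) + l + 1 ≤ a * T := by exact_mod_cast h3
    have : (l : ℝ) + 1 ≤ (a : ℝ) * t - b := by nlinarith
    simp [Bump.ev, plat_of_ge h2' this]

/-! ### Terms are smooth and periodic -/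

theorem contDiff_list_prod {E α : Type} [NormedAddCommGroup E] [NormedSpace ℝ E]
    (e : α → E → ℝ) (L : List α) (hL : ∀ g ∈ L, ContDiff ℝ ∞ (e g)) :
    ContDiff ℝ ∞ fun x => (L.map fun g => e g x).prod := by
  induction L with
  | nil => simpa using contDiff_const
  | cons g L ih =>
    simp only [List.map_cons, List.prod_cons]
    exact (hL g List.mem_cons_self).mul (ih fun q hq => hL q (List.mem_cons_of_mem _ hq))

theorem contDiff_list_sum {E α : Type} [NormedAddCommGroup E] [NormedSpace ℝ E]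
    (e : α → E → ℝ) (L : List α) (hL : ∀ g ∈ L, ContDiff ℝ ∞ (e g)) :
    ContDiff ℝ ∞ fun x => (L.map fun g => e g x).sum := by
  induction L with
  | nil => simpa using contDiff_const
  | cons g L ih =>
    simp only [List.map_cons, List.sum_cons]
    exact (hL g List.mem_cons_self).add (ih fun q hq => hL q (List.mem_cons_of_mem _ hq))

theorem Term.Valid.contDiff {τ : Term} (hτ : τ.Valid) (ν : ℝ) :
    ContDiff ℝ ∞ fun p : ℝ × V => τ.value ν p.1 p.2 := by
  obtain ⟨q, m, n, rs, θ, h⟩ := τ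
  obtain ⟨-, h2, h3⟩ := hτ
  refine (contDiff_const.mul ?_).mul ?_
  · refine contDiff_list_prod (fun (g : Bool × Bump) (p : ℝ × V) =>
      if g.1 then per g.2.ev p.1 else g.2.ev p.1) θ fun g hg => ?_
    split_ifs
    · exact (h2 g hg).per_contDiff.comp contDiff_fst
    · exact g.2.contDiff.comp contDiff_fst
  · refine contDiff_prod fun i _ => ?_
    refine contDiff_list_prod (fun (g : Bump) (p : ℝ × V) => per g.ev (p.2 i)) (h i) fun g hg => ?_
    exact (h3 i g hg).per_contDiff.comp ((contDiff_apply ℝ ℝ i).comp contDiff_snd)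

theorem Term.ev_add_int (τ : Term) (ν t : ℝ) (x : V) (m : Fin 3 → ℤ) :
    τ.value ν t (fun i => x i + m i) = τ.value ν t x := by
  obtain ⟨q, m', n, rs, θ, h⟩ := τ
  simp only [Term.value, per_add_int]

theorem force_contDiff {F : Fin 3 → List Term} {j : Fin 3} (hF : ∀ τ ∈ F j, τ.Valid) (ν : ℝ) :
    ContDiff ℝ ∞ fun p : ℝ × V => force ν F j p.1 p.2 :=
  contDiff_list_sum (fun (τ : Term) (p : ℝ × V) => τ.value ν p.1 p.2) (F j) fun τ hτ =>
    (hF τ hτ).contDiff ν

theorem force_smooth {F : Fin 3 → List Term} {j : Fin 3} (hF : ∀ τ ∈ F j, τ.Valid) (ν : ℝ) :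
    Smooth (force ν F j) := (force_contDiff hF ν).contDiffOn

theorem force_per (ν : ℝ) (F : Fin 3 → List Term) (j : Fin 3) (I : Set ℝ) :
    Per I (force ν F j) := fun t _ x m => by
  simp only [force, Term.ev_add_int]

end Vale.Agent.Q113
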