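import Vale.Agent.Q113.Sym
import Vale.Agent.Q113.Build

/-!
# P113: the force compiler
-/

namespace Vale.Agent.Q113

open Set

/-- The compiler: the terms of `∂_t u + (u·∇)u - ν Δu` for the velocity `vel`. -/
def comp (c : Machine × List ℕ) (j : Fin 3) : List Term := nsForce (vel c) j

/-! ### Primitive recursiveness -/

section Prim

open PR

variable {α : Type} [Primcodable α]

@[fun_prop] theorem kk_primrec : Primrec kk := by unfold kk; fun_prop

@[fun_prop] theorem bb_primrec : Primrec bb := by unfold bb; fun_prop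

@[fun_prop] theorem nn_primrec : Primrec nn := by unfold nn; fun_prop

@[fun_prop] theorem val_primrec {f : α → ℕ} {g : α → List ℕ} (hf : Primrec f) (hg : Primrec g) :
    Primrec fun a => val (f a) (g a) := by
  have h : Primrec fun a => (g a).foldr (fun (d : ℕ) (r : ℚ) => ((d : ℚ) + r) / (f a : ℚ)) 0 := by
    fun_prop
  refine h.of_eq fun a => ?_
  induction g a with
  | nil => rfl
  | cons d l ih => rw [List.foldr_cons, ih]; rfl

@[fun_prop] theorem entry_primrec {f : α → Machine} {g h : α → ℕ} (hf : Primrec f)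
    (hg : Primrec g) (hh : Primrec h) : Primrec fun a => (f a).entry (g a) (h a) := by
  unfold Machine.entry; fun_prop

@[fun_prop] theorem ctl_primrec {f : α → Machine} {g h k : α → ℕ} (hf : Primrec f)
    (hg : Primrec g) (hh : Primrec h) (hk : Primrec k) :
    Primrec fun a => ctl (f a) (g a) (h a) (k a) := by unfold ctl; fun_prop

@[fun_prop] theorem cq_primrec {f : α → Machine} {g : α → ℕ} (hf : Primrec f) (hg : Primrec g) :
    Primrec fun a => cq (f a) (g a) := by unfold cq; fun_prop

@[fun_prop] theorem ck_primrec {f : α → Machine} {g : α → ℕ} (hf : Primrec f) (hg : Primrec g) :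
    Primrec fun a => ck (f a) (g a) := by unfold ck; fun_prop

@[fun_prop] theorem cd_primrec {f : α → Machine} {g : α → ℕ} (hf : Primrec f) (hg : Primrec g) :
    Primrec fun a => cd (f a) (g a) := by unfold cd; fun_prop

@[fun_prop] theorem rcd_primrec {f : α → Machine} {g h : α → ℕ} (hf : Primrec f)
    (hg : Primrec g) (hh : Primrec h) : Primrec fun a => rcd (f a) (g a) (h a) := by
  unfold rcd; fun_prop

@[fun_prop] theorem pw_primrec {f : α → Machine} {g : α → ℕ} (hf : Primrec f) (hg : Primrec g) :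
    Primrec fun a => pw (f a) (g a) := by unfold pw; fun_prop

@[fun_prop] theorem uw_primrec {f : α → Machine} {g : α → ℕ} (hf : Primrec f) (hg : Primrec g) :
    Primrec fun a => uw (f a) (g a) := by unfold uw; fun_prop

@[fun_prop] theorem vw_primrec {f : α → Machine} {g : α → ℕ} (hf : Primrec f) (hg : Primrec g) :
    Primrec fun a => vw (f a) (g a) := by unfold vw; fun_prop

@[fun_prop] theorem lev_primrec {f : α → Machine} {g : α → ℕ} (hf : Primrec f) (hg : Primrec g) :
    Primrec fun a => lev (f a) (g a) := by unfold lev; fun_prop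

@[fun_prop] theorem hlt_primrec {f : α → Machine} {g : α → ℕ} (hf : Primrec f) (hg : Primrec g) :
    Primrec fun a => hlt (f a) (g a) := by unfold hlt; fun_prop

@[fun_prop] theorem inv_primrec {f : α → Machine} {g : α → ℕ} (hf : Primrec f) (hg : Primrec g) :
    Primrec fun a => inv (f a) (g a) := by unfold inv; fun_prop

@[fun_prop] theorem start_primrec {f : α → Machine} {g : α → List ℕ} (hf : Primrec f)
    (hg : Primrec g) : Primrec fun a => start (f a) (g a) := by unfold start; fun_prop

@[fun_prop] theorem cA_primrec {f : α → Machine} {g : α → ℕ} (hf : Primrec f) (hg : Primrec g) :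
    Primrec fun a => cA (f a) (g a) := by unfold cA; fun_prop

@[fun_prop] theorem cB_primrec {f : α → Machine} {g : α → ℕ} (hf : Primrec f) (hg : Primrec g) :
    Primrec fun a => cB (f a) (g a) := by unfold cB; fun_prop

@[fun_prop] theorem cD_primrec {f : α → Machine} {g : α → ℕ} (hf : Primrec f) (hg : Primrec g) :
    Primrec fun a => cD (f a) (g a) := by unfold cD; fun_prop

@[fun_prop] theorem cC_primrec {f : α → Machine} {g : α → ℕ} (hf : Primrec f) (hg : Primrec g) :
    Primrec fun a => cC (f a) (g a) := by unfold cC; fun_prop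

@[fun_prop] theorem lam_primrec : Primrec lam := by unfold lam; fun_prop

@[fun_prop] theorem W_primrec {f : α → ℚ} {g h : α → ℕ} (hf : Primrec f) (hg : Primrec g)
    (hh : Primrec h) : Primrec fun a => W (f a) (g a) (h a) := by unfold W; fun_prop

@[fun_prop] theorem mono_primrec (w : ℕ) (ip ir : Fin 3) {f : α → ℚ} {g h : α → Bump}
    (hf : Primrec f) (hg : Primrec g) (hh : Primrec h) :
    Primrec fun a => mono w ip ir (f a) (g a) (h a) := by unfold mono; fun_prop

theorem stage_primrec (w : ℕ) (ip ir : Fin 3) {N : α → ℕ} {σ l : α → ℚ}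
    {co : α → ℕ → ℚ × ℚ × ℚ} (hN : Primrec N) (hσ : Primrec σ) (hl : Primrec l)
    (hco : Primrec fun p : α × ℕ => co p.1 p.2) :
    Primrec fun a => stage w ip ir (N a) (σ a) (l a) (co a) := by unfold stage; fun_prop

theorem co1_primrec : Primrec fun p : Machine × ℕ => co1 p.1 p.2 := by unfold co1; fun_prop

theorem co2_primrec : Primrec fun p : Machine × ℕ => co2 p.1 p.2 := by unfold co2; fun_prop

theorem co3_primrec : Primrec fun p : Machine × ℕ => co3 p.1 p.2 := by unfold co3; fun_prop

theorem co4_primrec : Primrec fun p : Machine × ℕ => co4 p.1 p.2 := by unfold co4; fun_prop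

@[fun_prop] theorem Uper_primrec : Primrec Uper :=
  vec3' (stage_primrec 2 2 1 nn_primrec lam_primrec lam_primrec co2_primrec)
    (stage_primrec 3 2 0 nn_primrec lam_primrec lam_primrec co3_primrec)
    (append' (stage_primrec 1 0 1 nn_primrec (by fun_prop) lam_primrec co1_primrec)
      (stage_primrec 4 0 1 nn_primrec (by fun_prop) lam_primrec co4_primrec))

@[fun_prop] theorem ini_primrec : Primrec ini := by unfold ini; fun_prop

theorem Uini_primrec : Primrec fun c : Machine × List ℕ => Uini c.1 c.2 := by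
  unfold Uini; fun_prop

theorem vel_primrec : Primrec vel :=
  fin_pi' fun j => append' (fin_app' (Uper_primrec.comp Primrec.fst) (Primrec.const j))
    (fin_app' Uini_primrec (Primrec.const j))

theorem comp_primrec : Primrec comp := nsForce_primrec.comp vel_primrec

end Prim

/-! ### The shape of the terms of the velocity -/

theorem nn_pos (M : Machine) : 0 < nn M := by
  unfold nn bb kk; positivity

theorem lam_pos (M : Machine) : 0 < lam M := by
  have := nn_pos M
  unfold lam; positivity

theorem W_ok {σ : ℚ} (hσ : 0 < σ) (a k : ℕ) : (W σ a k).Ok :=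
  ⟨(by positivity : 4 / σ ≠ 0), (by norm_num : (0 : ℚ) < 4)⟩

theorem th_ok (w : ℕ) : (th w).Ok := (by norm_num : (10 : ℚ) ≠ 0)

theorem mono_ok (w : ℕ) (ip ir : Fin 3) (q : ℚ) {g₁ g₂ : Bump} (h₁ : g₁.Ok) (h₂ : g₂.Ok) :
    (mono w ip ir q g₁ g₂).Valid := by
  refine ⟨by simp, by simpa using th_ok w, fun i g hg => ?_⟩
  simp only at hg
  split_ifs at hg
  · rw [List.mem_singleton.1 hg]; exact h₁
  · rw [List.mem_singleton.1 hg]; exact h₂
  · simp at hg

theorem mem_stage {w : ℕ} {ip ir : Fin 3} {N : ℕ} {σ l : ℚ} {co : ℕ → ℚ × ℚ × ℚ} {τ : Term}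
    (h : τ ∈ stage w ip ir N σ l co) :
    ∃ q a k k', τ = mono w ip ir q (W σ a k) (W l 0 k') := by
  obtain ⟨a, -, h⟩ := List.mem_flatMap.1 h
  simp only [List.mem_cons, List.not_mem_nil, or_false] at h
  rcases h with rfl | rfl | rfl <;> exact ⟨_, _, _, _, rfl⟩

theorem mem_Uper {M : Machine} {j : Fin 3} {τ : Term} (h : τ ∈ Uper M j) :
    ∃ w ip ir q σ a k k', 0 < σ ∧ j ≠ ip ∧ j ≠ ir ∧
      τ = mono w ip ir q (W σ a k) (W (lam M) 0 k') := by
  have h1 := lam_pos M
  have h2 : 0 < lam M / nn M := by have := nn_pos M; positivity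
  fin_cases j
  · obtain ⟨q, a, k, k', rfl⟩ := mem_stage h
    exact ⟨_, _, _, _, _, _, _, _, h1, by decide, by decide, rfl⟩
  · obtain ⟨q, a, k, k', rfl⟩ := mem_stage h
    exact ⟨_, _, _, _, _, _, _, _, h1, by decide, by decide, rfl⟩
  · rcases List.mem_append.1 h with h | h <;> obtain ⟨q, a, k, k', rfl⟩ := mem_stage h <;>
      exact ⟨_, _, _, _, _, _, _, _, h2, by decide, by decide, rfl⟩

theorem mem_Uini {M : Machine} {w : List ℕ} {j : Fin 3} {τ : Term} (h : τ ∈ Uini M w j) :
    ∃ q, τ = ini q := by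
  fin_cases j
  · exact ⟨_, List.mem_singleton.1 h⟩
  · exact absurd h List.not_mem_nil
  · exact absurd h List.not_mem_nil

theorem vel_ok (M : Machine) (w : List ℕ) (j : Fin 3) : ∀ τ ∈ vel (M, w) j, τ.Valid := by
  intro τ hτ
  rcases List.mem_append.1 hτ with h | h
  · obtain ⟨w, ip, ir, q, σ, a, k, k', hσ, -, -, rfl⟩ := mem_Uper h
    exact mono_ok _ _ _ _ (W_ok hσ _ _) (W_ok (lam_pos M) _ _)
  · obtain ⟨q, rfl⟩ := mem_Uini h
    exact ⟨by simp, by simpa using th_ok 0, by simp⟩

theorem vel_free (M : Machine) (w : List ℕ) (j : Fin 3) :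
    ∀ τ ∈ vel (M, w) j, τ.2.2.2.2.2 j = [] := by
  intro τ hτ
  rcases List.mem_append.1 hτ with h | h
  · obtain ⟨w, ip, ir, q, σ, a, k, k', -, h1, h2, rfl⟩ := mem_Uper h
    simp [mono, h1, h2]
  · obtain ⟨q, rfl⟩ := mem_Uini h
    rfl

theorem vel_late (M : Machine) (w : List ℕ) (j : Fin 3) : ∀ τ ∈ vel (M, w) j, τ.Late (1 / 5) := by
  intro τ hτ
  rcases List.mem_append.1 hτ with h | h
  · obtain ⟨w, ip, ir, q, σ, a, k, k', -, -, -, rfl⟩ := mem_Uper h
    simp [Term.Late, mono]
  · obtain ⟨q, rfl⟩ := mem_Uini h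
    simp only [Term.Late, ini, List.mem_singleton, forall_eq, th, Bump.Late]
    norm_num

theorem filter_vel (M : Machine) (w : List ℕ) (j : Fin 3) :
    (vel (M, w) j).filter Term.periodic = Uper M j := by
  rw [vel, List.filter_append, List.filter_eq_self.2, List.filter_eq_nil_iff.2, List.append_nil]
  · intro τ h
    obtain ⟨q, rfl⟩ := mem_Uini h
    simp [ini, Term.periodic]
  · intro τ h
    obtain ⟨w, ip, ir, q, σ, a, k, k', -, -, -, rfl⟩ := mem_Uper h
    rfl

theorem comp_ok (M : Machine) (w : List ℕ) (j : Fin 3) : ∀ τ ∈ comp (M, w) j, τ.Valid :=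
  nsForce_ok (vel_ok M w) j

theorem isCompiler_comp : IsCompiler comp where
  computable := comp_primrec.to_comp
  ok M w _ _ := comp_ok M w
  vanish := ⟨((1 / 5 : ℚ) : ℝ), fun M w _ _ j τ hτ hp ν _ ht x =>
    Term.ev_of_late (nsForce_late (vel_late M w) j τ hτ) hp ν ht x⟩
  same M w w' _ _ _ j := by
    simp only [comp, filter_nsForce, filter_vel]

theorem th_int (w : ℕ) (m : ℤ) : (th w).ev m = 0 := by
  have h : (1 : ℝ) ≤ |(10 : ℝ) * m - (2 * w + 1)| := by
    have h1 : (1 : ℤ) ≤ |10 * m - (2 * w + 1)| := Int.one_le_abs (by omega)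
    exact_mod_cast h1
  simp [th, Bump.ev, rho_of_le_abs h]

theorem vel_zero (ν : ℝ) (M : Machine) (w : List ℕ) (j : Fin 3) (x : V) :
    force ν (vel (M, w)) j 0 x = 0 := by
  refine List.sum_eq_zero fun r hr => ?_
  obtain ⟨τ, hτ, rfl⟩ := List.mem_map.1 hr
  rcases List.mem_append.1 hτ with h | h
  · obtain ⟨w, ip, ir, q, σ, a, k, k', -, -, -, rfl⟩ := mem_Uper h
    simp [Term.ev_eq, mono, flagEv, per, th_int]
  · obtain ⟨q, rfl⟩ := mem_Uini h
    have h0 : (th 0).ev 0 = 0 := by simpa using th_int 0 0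
    simp [Term.ev_eq, ini, flagEv, h0]

/-- The velocity solves the system with the compiled force and zero pressure. -/
theorem isClassical_comp (ν : ℝ) (M : Machine) (w : List ℕ) {I : Set ℝ} (hI : UniqueDiffOn ℝ I) :
    IsClassical ν (force ν (comp (M, w))) I (force ν (vel (M, w))) (fun _ _ => 0) :=
  isClassical_nsForce ν (vel_ok M w) (vel_free M w) (vel_zero ν M w) hI

/-- The analytic clauses of the main statement, except uniqueness and the trajectory. -/
theorem comp_spec (ν : ℝ) (M : Machine) (w : List ℕ) :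
    (∀ j, Smooth (force ν (comp (M, w)) j) ∧ Per (Ici 0) (force ν (comp (M, w)) j)) ∧
      (∀ j, Smooth (force ν (vel (M, w)) j)) ∧ Smooth (fun _ _ => 0) ∧
      IsClassical ν (force ν (comp (M, w))) (Ici 0) (force ν (vel (M, w))) (fun _ _ => 0) ∧
      ∀ T, 0 < T →
        IsClassical ν (force ν (comp (M, w))) (Icc 0 T) (force ν (vel (M, w))) (fun _ _ => 0) :=
  ⟨fun j => ⟨force_smooth (comp_ok M w j) ν, force_per ν _ j _⟩,
    fun j => force_smooth (vel_ok M w j) ν, contDiffOn_const,
    isClassical_comp ν M w (uniqueDiffOn_Ici 0),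
    fun _ hT => isClassical_comp ν M w (uniqueDiffOn_Icc hT)⟩

end Vale.Agent.Q113
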