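import Mathlib

/-!
# P113: the words of the statement

Functions on the torus are `ℤ³`-periodic functions on `ℝ³`.
-/

noncomputable section

namespace Vale.Agent.Q113

open MeasureTheory Set

/-- Points of `ℝ³`. -/
abbrev V : Type := Fin 3 → ℝ

/-! ### Admissible functions -/

/-- `ρ(s) = exp (-1 / (1 - s²))` for `|s| < 1`, and `0` otherwise. -/
def rho (s : ℝ) : ℝ := if |s| < 1 then Real.exp (-1 / (1 - s ^ 2)) else 0

/-- `κ = ∫ ρ`. -/
def kappa : ℝ := ∫ s, rho s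

/-- `σ(s) = ∫_{-∞}^s ρ`. -/
def sigma (s : ℝ) : ℝ := ∫ r in Iic s, rho r

/-- `π_ℓ(s) = σ(s) - σ(s - ℓ)`. -/
def plat (l s : ℝ) : ℝ := sigma s - sigma (s - l)

/-- The data of a bump: `(inl j, k, a, b)` or `(inr ℓ, k, a, b)`. -/
abbrev Bump : Type := (ℕ ⊕ ℚ) × ℕ × ℚ × ℚ

/-- The bump `s ↦ s^k ρ^(j)(a s - b)`, respectively `s ↦ s^k π_ℓ(a s - b)`. -/
def Bump.ev : Bump → ℝ → ℝ
  | (Sum.inl j, k, a, b), s => s ^ k * iteratedDeriv j rho (a * s - b)
  | (Sum.inr l, k, a, b), s => s ^ k * plat l (a * s - b)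

/-- `a ≠ 0`, and `ℓ > 0` for the second kind. -/
def Bump.Ok : Bump → Prop
  | (Sum.inl _, _, a, _) => a ≠ 0
  | (Sum.inr l, _, a, _) => a ≠ 0 ∧ 0 < l

/-- The `1`-periodization `P[g](y) = ∑_{m ∈ ℤ} g (y + m)`. -/
def per (g : ℝ → ℝ) (y : ℝ) : ℝ := ∑' m : ℤ, g (y + m)

/-- The data of a term: `(q, m, n, [r_i], factors of θ, factors of h₁, h₂, h₃)`; a factor
`(true, g)` of `θ` is `P[g](t)`, a factor `(false, g)` is `g(t)`. -/
abbrev Term : Type := ℚ × ℕ × ℤ × List ℚ × List (Bool × Bump) × (Fin 3 → List Bump)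

/-- The function `c θ(t) h₁(x₁) h₂(x₂) h₃(x₃)`, `c = q ν^m κ^n ∏ ln r_i` (empty products are `1`). -/
def Term.value (ν : ℝ) : Term → ℝ → V → ℝ
  | (q, m, n, rs, θ, h), t, x =>
    (q * ν ^ m * kappa ^ n * (rs.map fun r : ℚ => Real.log r).prod) *
      (θ.map fun g => if g.1 then per g.2.ev t else g.2.ev t).prod *
      ∏ i, ((h i).map fun g => per g.ev (x i)).prod

/-- All `r_i > 0` and all bumps are well formed. -/
def Term.Valid : Term → Prop
  | (_, _, _, rs, θ, h) => (∀ r ∈ rs, 0 < r) ∧ (∀ g ∈ θ, g.2.Ok) ∧ ∀ i, ∀ g ∈ h i, g.Ok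

/-- The term is periodic: `θ` is `1` or a product of periodizations only. -/
def Term.periodic : Term → Bool
  | (_, _, _, _, θ, _) => θ.all fun g => g.1

/-- The force whose `j`-th component is the sum of the terms of the list `F j`. -/
def force (ν : ℝ) (F : Fin 3 → List Term) (j : Fin 3) (t : ℝ) (x : V) : ℝ :=
  ((F j).map fun τ => τ.value ν t x).sum

/-! ### Turing machines -/

/-- The data of a machine: `(n, m, s, H, δ)`: states `0, …, n - 1`, tape symbols `0, …, m - 1`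
(`0` is the blank), start state `s`, halting states `H`, and the table `δ`, whose entry in row
`q`, column `a` is (new state, symbol written, move of the head). -/
abbrev Machine : Type := ℕ × ℕ × ℕ × List ℕ × List (List (ℕ × ℕ × ℤ))

/-- The entry of the table for the state `q` and the scanned symbol `a`. -/
def Machine.entry (M : Machine) (q a : ℕ) : ℕ × ℕ × ℤ := (M.2.2.2.2.getD q []).getD a (0, 0, 0)

/-- The table has `n` rows of `m ≥ 1` entries, with states `< n`, symbols `< m` and moves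
`-1`, `0` or `1`; the start state and the halting states are states. -/
def Machine.WF : Machine → Prop
  | (n, m, s, H, δ) => 0 < m ∧ s < n ∧ (∀ q ∈ H, q < n) ∧ δ.length = n ∧
      ∀ row ∈ δ, row.length = m ∧
        ∀ e ∈ row, e.1 < n ∧ e.2.1 < m ∧ (e.2.2 = -1 ∨ e.2.2 = 0 ∨ e.2.2 = 1)

/-- A word over the alphabet of the machine. -/
def Machine.Word (M : Machine) (w : List ℕ) : Prop := ∀ a ∈ w, a < M.2.1

/-- One step on configurations (state, position of the head, two-sided tape). -/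
def Machine.step (M : Machine) : ℕ × ℤ × (ℤ → ℕ) → ℕ × ℤ × (ℤ → ℕ)
  | (q, z, tape) =>
    ((M.entry q (tape z)).1, z + (M.entry q (tape z)).2.2,
      Function.update tape z (M.entry q (tape z)).2.1)

/-- The start configuration: `w` on the cells `0, 1, …`, blanks elsewhere, head on cell `0`. -/
def Machine.init (M : Machine) (w : List ℕ) : ℕ × ℤ × (ℤ → ℕ) :=
  (M.2.2.1, 0, fun z => if 0 ≤ z then w.getD z.toNat 0 else 0)

/-- The machine reaches a halting state after finitely many steps, possibly none. -/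
def Machine.Halts (M : Machine) (w : List ℕ) : Prop :=
  ∃ k : ℕ, (M.step^[k] (M.init w)).1 ∈ M.2.2.2.1

/-- A force compiler. -/
structure IsCompiler (C : Machine × List ℕ → Fin 3 → List Term) : Prop where
  computable : Computable C
  ok : ∀ M w, M.WF → M.Word w → ∀ j, ∀ τ ∈ C (M, w) j, τ.Valid
  vanish : ∃ T₀ : ℝ, ∀ M w, M.WF → M.Word w → ∀ j, ∀ τ ∈ C (M, w) j, τ.periodic = false →
    ∀ ν : ℝ, ∀ t, T₀ ≤ t → ∀ x, τ.value ν t x = 0
  same : ∀ M w w', M.WF → M.Word w → M.Word w' → ∀ j,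
    (C (M, w) j).filter Term.periodic = (C (M, w') j).filter Term.periodic

/-! ### The Navier-Stokes system on the torus -/

/-- `g(t, ·)` is `ℤ³`-periodic for `t ∈ I`. -/
def Per (I : Set ℝ) (g : ℝ → V → ℝ) : Prop :=
  ∀ t ∈ I, ∀ (x : V) (m : Fin 3 → ℤ), g t (fun i => x i + m i) = g t x

/-- `g` is continuous on `I × ℝ³`. -/
def Cont (I : Set ℝ) (g : ℝ → V → ℝ) : Prop :=
  ContinuousOn (fun p : ℝ × V => g p.1 p.2) (I ×ˢ univ)

/-- The time derivative within `I` (one-sided at end points). -/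
def dt (I : Set ℝ) (g : ℝ → V → ℝ) (t : ℝ) (x : V) : ℝ := derivWithin (fun s => g s x) I t

/-- The derivative in the direction of the `i`-th coordinate. -/
def dx (i : Fin 3) (g : ℝ → V → ℝ) (t : ℝ) (x : V) : ℝ := lineDeriv ℝ (g t) x (Pi.single i 1)

/-- `∂_t g` exists and is continuous on `I × ℝ³`. -/
def HasDt (I : Set ℝ) (g : ℝ → V → ℝ) : Prop :=
  (∀ t ∈ I, ∀ x, DifferentiableWithinAt ℝ (fun s => g s x) I t) ∧ Cont I (dt I g)

/-- All `∂_i g` exist and are continuous on `I × ℝ³`. -/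
def HasDx (I : Set ℝ) (g : ℝ → V → ℝ) : Prop :=
  ∀ i, (∀ t ∈ I, ∀ x, LineDifferentiableAt ℝ (g t) x (Pi.single i 1)) ∧ Cont I (dx i g)

/-- `(u, p)` is a classical solution on `I × 𝕋³` of the system with viscosity `ν`, force `f` and
zero initial velocity. -/
structure IsClassical (ν : ℝ) (f : Fin 3 → ℝ → V → ℝ) (I : Set ℝ) (u : Fin 3 → ℝ → V → ℝ)
    (p : ℝ → V → ℝ) : Prop where
  reg_u : ∀ j, Per I (u j) ∧ Cont I (u j) ∧ HasDt I (u j) ∧ HasDx I (u j) ∧
    ∀ i, HasDx I (dx i (u j))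
  reg_p : Per I p ∧ Cont I p ∧ HasDx I p
  mean : ∀ t ∈ I, ∫ x in Icc (0 : V) 1, p t x = 0
  eqn : ∀ j, ∀ t ∈ I, ∀ x, dt I (u j) t x + ∑ i, u i t x * dx i (u j) t x =
    -dx j p t x + ν * ∑ i, dx i (dx i (u j)) t x + f j t x
  div : ∀ t ∈ I, ∀ x, ∑ i, dx i (u i) t x = 0
  init : ∀ j x, u j 0 x = 0

/-- `g` is smooth on `[0, ∞) × ℝ³`. -/
def Smooth (g : ℝ → V → ℝ) : Prop :=
  ContDiffOn ℝ (⊤ : ℕ∞) (fun p : ℝ × V => g p.1 p.2) (Ici 0 ×ˢ univ)

/-- `X` is (a lift to `ℝ³` of) a trajectory of `u` from `a`, for all `t ≥ 0`. -/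
def IsTrajectory (u : Fin 3 → ℝ → V → ℝ) (a : V) (X : ℝ → V) : Prop :=
  X 0 = a ∧ ∀ t, 0 ≤ t → HasDerivWithinAt X (fun j => u j t (X t)) (Ici 0) t

/-- The class of `x` in `ℝ³ / ℤ³` lies in the image of the open box with corners `lo`, `hi`. -/
def InBox (lo hi : Fin 3 → ℚ) (x : V) : Prop :=
  ∃ m : Fin 3 → ℤ, ∀ i, (lo i : ℝ) < x i + m i ∧ x i + m i < hi i

end Vale.Agent.Q113
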