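import Vale.Agent.Q113.Ibp

/-!
# P113: uniqueness of classical solutions by the energy method
-/

noncomputable section

namespace Vale.Agent.Q113

open MeasureTheory Set Filter Topology

theorem hl_mul {f g : V → ℝ} {a b : ℝ} {x e : V} (hf : HasLineDerivAt ℝ f a x e)
    (hg : HasLineDerivAt ℝ g b x e) :
    HasLineDerivAt ℝ (fun y => f y * g y) (a * g x + f x * b) x e := by
  have h := HasDerivAt.mul hf hg
  simp only [zero_smul, add_zero] at h
  exact h

theorem hl_add {f g : V → ℝ} {a b : ℝ} {x e : V} (hf : HasLineDerivAt ℝ f a x e)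
    (hg : HasLineDerivAt ℝ g b x e) : HasLineDerivAt ℝ (fun y => f y + g y) (a + b) x e :=
  HasDerivAt.add hf hg

theorem hl_sub {f g : V → ℝ} {a b : ℝ} {x e : V} (hf : HasLineDerivAt ℝ f a x e)
    (hg : HasLineDerivAt ℝ g b x e) : HasLineDerivAt ℝ (fun y => f y - g y) (a - b) x e :=
  HasDerivAt.sub hf hg

theorem hl_const_mul (c : ℝ) {f : V → ℝ} {a : ℝ} {x e : V} (hf : HasLineDerivAt ℝ f a x e) :
    HasLineDerivAt ℝ (fun y => c * f y) (c * a) x e :=
  HasDerivAt.const_mul c hf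

theorem hl_sum {f : Fin 3 → V → ℝ} {a : Fin 3 → ℝ} {x e : V}
    (hf : ∀ j, HasLineDerivAt ℝ (f j) (a j) x e) :
    HasLineDerivAt ℝ (fun y => ∑ j, f j y) (∑ j, a j) x e :=
  HasDerivAt.fun_sum fun j _ => hf j

theorem Per.dx {I : Set ℝ} {g : ℝ → V → ℝ} (hg : Per I g) (i : Fin 3) : Per I (dx i g) := by
  intro t ht x m
  unfold Q113.dx lineDeriv
  congr 1
  funext s
  refine Eq.trans ?_ (hg t ht (x + s • Pi.single i (1 : ℝ)) m)
  congr 1
  funext k
  simp only [Pi.add_apply]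
  ring

/-- The spatial part of the energy estimate. -/
theorem energy_slice {ν K : ℝ} (hν : 0 ≤ ν) {w v wt : Fin 3 → V → ℝ} {r : V → ℝ}
    {dw dv du ddw : Fin 3 → Fin 3 → V → ℝ} {dr : Fin 3 → V → ℝ}
    (pw : ∀ j (x : V) (m : Fin 3 → ℤ), w j (fun k => x k + m k) = w j x)
    (pv : ∀ j (x : V) (m : Fin 3 → ℤ), v j (fun k => x k + m k) = v j x)
    (pr : ∀ (x : V) (m : Fin 3 → ℤ), r (fun k => x k + m k) = r x)
    (pdw : ∀ i j (x : V) (m : Fin 3 → ℤ), dw i j (fun k => x k + m k) = dw i j x)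
    (cw : ∀ j, Continuous (w j)) (cv : ∀ j, Continuous (v j)) (cr : Continuous r)
    (cwt : ∀ j, Continuous (wt j))
    (cdw : ∀ i j, Continuous (dw i j)) (cdv : ∀ i j, Continuous (dv i j))
    (cddw : ∀ i j, Continuous (ddw i j)) (cdr : ∀ i, Continuous (dr i))
    (hw : ∀ i j x, HasLineDerivAt ℝ (w j) (dw i j x) x (Pi.single i 1))
    (hv : ∀ i j x, HasLineDerivAt ℝ (v j) (dv i j x) x (Pi.single i 1))
    (hdw : ∀ i j x, HasLineDerivAt ℝ (dw i j) (ddw i j x) x (Pi.single i 1))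
    (hr : ∀ i x, HasLineDerivAt ℝ r (dr i x) x (Pi.single i 1))
    (divw : ∀ x, ∑ i, dw i i x = 0) (divv : ∀ x, ∑ i, dv i i x = 0)
    (eqn : ∀ j x, wt j x + ∑ i, (v i x * dw i j x + w i x * du i j x) =
      -dr j x + ν * ∑ i, ddw i j x)
    (hK : ∀ i j, ∀ x ∈ Icc (0 : V) 1, |du i j x| ≤ K) :
    ∫ x in Icc (0 : V) 1, ∑ j, 2 * w j x * wt j x ≤
      6 * K * ∫ x in Icc (0 : V) 1, ∑ j, w j x ^ 2 := by
  let G' : Fin 3 → V → ℝ := fun i x =>
    (dv i i x * (∑ j, w j x * w j x) + v i x * ∑ j, (dw i j x * w j x + w j x * dw i j x)) +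
      2 * (dw i i x * r x + w i x * dr i x) -
      2 * ν * ∑ j, (dw i j x * dw i j x + w j x * ddw i j x)
  have cG' : ∀ i, Continuous (G' i) := fun i => by
    simp only [G']
    fun_prop
  have hG : ∀ i, ∫ x in Icc (0 : V) 1, G' i x = 0 := fun i => by
    refine integral_dx_eq_zero (G := fun x => v i x * (∑ j, w j x * w j x) + 2 * (w i x * r x) -
      2 * ν * ∑ j, w j x * dw i j x) i (fun x m => by simp only [pw, pv, pr, pdw]) (fun x => ?_)
      (cG' i)
    exact hl_sub (hl_add (hl_mul (hv i i x) (hl_sum fun j => hl_mul (hw i j x) (hw i j x)))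
      (hl_const_mul 2 (hl_mul (hw i i x) (hr i x))))
      (hl_const_mul (2 * ν) (hl_sum fun j => hl_mul (hw i j x) (hdw i j x)))
  have int : ∀ {H : V → ℝ}, Continuous H → IntegrableOn H (Icc (0 : V) 1) := fun hH =>
    hH.continuousOn.integrableOn_compact isCompact_Icc
  have h0 : ∫ x in Icc (0 : V) 1, ∑ i, G' i x = 0 := by
    rw [integral_finsetSum _ fun i _ => int (cG' i)]
    simp [hG]
  have h1 : ∫ x in Icc (0 : V) 1, ∑ j, 2 * w j x * wt j x =
      ∫ x in Icc (0 : V) 1, (∑ j, 2 * w j x * wt j x + ∑ i, G' i x) := by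
    rw [integral_add (int (by fun_prop)) (int (by fun_prop)), h0, add_zero]
  rw [h1, ← integral_const_mul]
  refine setIntegral_mono_on (int (by fun_prop)) (int (by fun_prop)) measurableSet_Icc
    fun x hx => ?_
  have e0 := eqn 0 x
  have e1 := eqn 1 x
  have e2 := eqn 2 x
  have d1 := divw x
  have d2 := divv x
  have key : ∑ j, 2 * w j x * wt j x + ∑ i, G' i x =
      -2 * (∑ i, ∑ j, w j x * w i x * du i j x) - 2 * ν * ∑ i, ∑ j, dw i j x ^ 2 := by
    simp only [G', Fin.sum_univ_three] at e0 e1 e2 d1 d2 ⊢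
    linear_combination 2 * w 0 x * e0 + 2 * w 1 x * e1 + 2 * w 2 x * e2 + 2 * r x * d1 +
      (w 0 x * w 0 x + w 1 x * w 1 x + w 2 x * w 2 x) * d2
  have b : ∀ i j, -(w j x * w i x * du i j x) ≤ K * ((w i x ^ 2 + w j x ^ 2) / 2) := by
    intro i j
    have h2 : |w j x * w i x| ≤ (w i x ^ 2 + w j x ^ 2) / 2 :=
      abs_le.2 ⟨by nlinarith [sq_nonneg (w i x + w j x)], by nlinarith [sq_nonneg (w i x - w j x)]⟩
    calc -(w j x * w i x * du i j x) ≤ |w j x * w i x * du i j x| := neg_le_abs _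
      _ = |du i j x| * |w j x * w i x| := by rw [abs_mul, mul_comm]
      _ ≤ K * ((w i x ^ 2 + w j x ^ 2) / 2) :=
        mul_le_mul (hK i j x hx) h2 (abs_nonneg _) ((abs_nonneg _).trans (hK i j x hx))
  have hs : 0 ≤ 2 * ν * ∑ i, ∑ j, dw i j x ^ 2 := by positivity
  rw [key]
  simp only [Fin.sum_univ_three] at hs ⊢
  linarith [b 0 0, b 0 1, b 0 2, b 1 0, b 1 1, b 1 2, b 2 0, b 2 1, b 2 2]

theorem Cont.bound {T : ℝ} {g : ℝ → V → ℝ} (hg : Cont (Icc 0 T) g) :
    ∃ K, ∀ t ∈ Icc 0 T, ∀ x ∈ Icc (0 : V) 1, |g t x| ≤ K := by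
  obtain ⟨K, hK⟩ := (isCompact_Icc.prod isCompact_Icc).exists_bound_of_continuousOn
    (hg.mono (prod_mono (Subset.refl (Icc 0 T)) (subset_univ (Icc (0 : V) 1))))
  exact ⟨K, fun t ht x hx => hK (t, x) ⟨ht, hx⟩⟩

theorem Cont.integral {T : ℝ} {g : ℝ → V → ℝ} (hg : Cont (Icc 0 T) g) :
    ContinuousOn (fun t => ∫ x in Icc (0 : V) 1, g t x) (Icc 0 T) := by
  rw [continuousOn_iff_continuous_domRestrict]
  refine continuous_parametric_integral_of_continuous (f := fun (t : Icc 0 T) x => g t x) ?_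
    isCompact_Icc
  exact ContinuousOn.comp_continuous (f := fun p : Icc 0 T × V => ((p.1 : ℝ), p.2)) hg
    (by fun_prop) fun p => ⟨p.1.2, mem_univ _⟩

theorem hasDerivAt_cube {T : ℝ} {g g' : ℝ → V → ℝ} (hg : Cont (Icc 0 T) g)
    (hg' : Cont (Icc 0 T) g') (hd : ∀ t ∈ Ioo 0 T, ∀ x, HasDerivAt (fun s => g s x) (g' t x) t)
    {t : ℝ} (ht : t ∈ Ioo 0 T) :
    HasDerivAt (fun s => ∫ x in Icc (0 : V) 1, g s x) (∫ x in Icc (0 : V) 1, g' t x) t := by
  obtain ⟨K, hK⟩ := hg'.bound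
  have hn : Ioo 0 T ∈ 𝓝 t := isOpen_Ioo.mem_nhds ht
  refine (hasDerivAt_integral_of_dominated_loc_of_deriv_le (μ := volume.restrict (Icc (0 : V) 1))
    (F := g) (F' := g') (bound := fun _ => K) hn ?_ ?_ ?_ ?_ ?_ ?_).2
  · filter_upwards [hn] with s hs
    exact (hg.slice (Ioo_subset_Icc_self hs)).aestronglyMeasurable
  · exact (hg.slice (Ioo_subset_Icc_self ht)).continuousOn.integrableOn_compact isCompact_Icc
  · exact (hg'.slice (Ioo_subset_Icc_self ht)).aestronglyMeasurable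
  · filter_upwards [ae_restrict_mem measurableSet_Icc] with x hx s hs
    exact hK s (Ioo_subset_Icc_self hs) x hx
  · exact continuous_const.continuousOn.integrableOn_compact isCompact_Icc
  · exact Eventually.of_forall fun x s hs => hd s hs x

theorem gronwall_zero {T C : ℝ} {E D : ℝ → ℝ} (hc : ContinuousOn E (Icc 0 T))
    (hd : ∀ t ∈ Ioo 0 T, HasDerivAt E (D t) t) (hD : ∀ t ∈ Ioo 0 T, D t ≤ C * E t)
    (h0 : E 0 = 0) : ∀ t ∈ Icc 0 T, E t ≤ 0 := by
  intro t ht
  have hder : ∀ s ∈ Ioo 0 T, HasDerivAt (fun s => Real.exp (-C * s) * E s)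
      (Real.exp (-C * s) * (D s - C * E s)) s := by
    intro s hs
    have h1 : HasDerivAt (fun s => -C * s) (-C) s := by
      simpa using (hasDerivAt_id s).const_mul (-C)
    refine (h1.exp.mul (hd s hs)).congr_deriv ?_
    ring
  have ha : AntitoneOn (fun s => Real.exp (-C * s) * E s) (Icc 0 T) := by
    refine antitoneOn_of_deriv_nonpos (convex_Icc 0 T) ?_ ?_ ?_
    · exact (Continuous.continuousOn (by fun_prop)).mul hc
    · rw [interior_Icc]
      exact fun s hs => (hder s hs).differentiableAt.differentiableWithinAt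
    · rw [interior_Icc]
      intro s hs
      rw [(hder s hs).deriv]
      exact mul_nonpos_of_nonneg_of_nonpos (Real.exp_pos _).le (sub_nonpos.2 (hD s hs))
  have h2 := ha ⟨le_rfl, ht.1.trans ht.2⟩ ht ht.1
  simp only [h0, mul_zero] at h2
  exact nonpos_of_mul_nonpos_right h2 (Real.exp_pos _) |> fun h => h

theorem eq_zero_of_integral {H : V → ℝ} (hc : Continuous H) (h0 : ∀ x, 0 ≤ H x)
    (hper : ∀ (x : V) (m : Fin 3 → ℤ), H (fun k => x k + m k) = H x)
    (hi : ∫ x in Icc (0 : V) 1, H x ≤ 0) (x : V) : H x = 0 := by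
  have h1 : ∫ x in Icc (0 : V) 1, H x = 0 := le_antisymm hi (integral_nonneg h0)
  rw [setIntegral_eq_zero_iff_of_nonneg_ae (Eventually.of_forall h0)
    (hc.continuousOn.integrableOn_compact isCompact_Icc)] at h1
  have h2 : EqOn H 0 (Icc (0 : V) 1) := by
    refine Measure.eqOn_of_ae_eq h1 hc.continuousOn continuousOn_const ?_
    rw [← pi_univ_Icc, interior_pi_set finite_univ, closure_pi_set]
    refine pi_mono fun i _ => ?_
    simp
  have h3 := h2 (x := fun k => x k + ((-⌊x k⌋ : ℤ) : ℝ)) ⟨fun k => ?_, fun k => ?_⟩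
  · rw [← hper x fun k => -⌊x k⌋]; exact h3
  · have := Int.floor_le (x k)
    simp only [Pi.zero_apply]; push_cast; linarith
  · have := Int.lt_floor_add_one (x k)
    simp only [Pi.one_apply]; push_cast; linarith

theorem velocity_unique {ν T : ℝ} (hν : 0 < ν) {f u v : Fin 3 → ℝ → V → ℝ}
    {p q : ℝ → V → ℝ} (hu : IsClassical ν f (Icc 0 T) u p) (hv : IsClassical ν f (Icc 0 T) v q) :
    ∀ t ∈ Icc 0 T, ∀ x j, v j t x = u j t x := by
  have cu : ∀ j, Cont (Icc 0 T) (u j) := fun j => (hu.reg_u j).2.1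
  have cv : ∀ j, Cont (Icc 0 T) (v j) := fun j => (hv.reg_u j).2.1
  have cut : ∀ j, Cont (Icc 0 T) (dt (Icc 0 T) (u j)) := fun j => (hu.reg_u j).2.2.1.2
  have cvt : ∀ j, Cont (Icc 0 T) (dt (Icc 0 T) (v j)) := fun j => (hv.reg_u j).2.2.1.2
  have xu : ∀ j, HasDx (Icc 0 T) (u j) := fun j => (hu.reg_u j).2.2.2.1
  have xv : ∀ j, HasDx (Icc 0 T) (v j) := fun j => (hv.reg_u j).2.2.2.1
  have xxu : ∀ i j, HasDx (Icc 0 T) (dx i (u j)) := fun i j => (hu.reg_u j).2.2.2.2 i
  have xxv : ∀ i j, HasDx (Icc 0 T) (dx i (v j)) := fun i j => (hv.reg_u j).2.2.2.2 i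
  obtain ⟨K, hK⟩ : ∃ K, ∀ i j, ∀ t ∈ Icc 0 T, ∀ x ∈ Icc (0 : V) 1, |dx i (u j) t x| ≤ K := by
    choose K hK using fun i j => ((xu j) i).2.bound
    refine ⟨∑ i, ∑ j, |K i j|, fun i j t ht x hx => (hK i j t ht x hx).trans
      ((le_abs_self _).trans ?_)⟩
    exact (Finset.single_le_sum (f := fun j => |K i j|) (fun _ _ => abs_nonneg _)
      (Finset.mem_univ j)).trans (Finset.single_le_sum (f := fun i => ∑ j, |K i j|)
        (fun _ _ => Finset.sum_nonneg fun _ _ => abs_nonneg _) (Finset.mem_univ i))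
  have cE : Cont (Icc 0 T) fun t x => ∑ j, (v j t x - u j t x) ^ 2 :=
    continuousOn_finsetSum _ fun j _ => ((cv j).sub (cu j)).pow 2
  have cD : Cont (Icc 0 T) fun t x => ∑ j, 2 * (v j t x - u j t x) *
      (dt (Icc 0 T) (v j) t x - dt (Icc 0 T) (u j) t x) :=
    continuousOn_finsetSum _ fun j _ =>
      (continuousOn_const.mul ((cv j).sub (cu j))).mul ((cvt j).sub (cut j))
  have hE := gronwall_zero (C := 6 * K) cE.integral
    (fun t ht => hasDerivAt_cube cE cD (fun s hs x => ?_) ht) (fun t ht => ?_)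
    (by simp [hu.init, hv.init])
  · intro t ht x j
    have h1 := eq_zero_of_integral (cE.slice ht) (fun x => by positivity)
      (fun x m => by simp only [(hu.reg_u _).1 t ht x m, (hv.reg_u _).1 t ht x m]) (hE t ht) x
    rw [Finset.sum_eq_zero_iff_of_nonneg fun _ _ => sq_nonneg _] at h1
    exact sub_eq_zero.1 (pow_eq_zero_iff two_ne_zero |>.1 (h1 j (Finset.mem_univ j)))
  · have hs' := Ioo_subset_Icc_self hs
    have hn : Icc 0 T ∈ 𝓝 s := Icc_mem_nhds hs.1 hs.2
    refine HasDerivAt.fun_sum fun j _ => ?_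
    have a := ((hv.reg_u j).2.2.1.1 s hs' x).hasDerivWithinAt.hasDerivAt hn
    have b := ((hu.reg_u j).2.2.1.1 s hs' x).hasDerivWithinAt.hasDerivAt hn
    refine ((a.sub b).pow 2).congr_deriv ?_
    simp [dt]
  · have ht' := Ioo_subset_Icc_self ht
    refine energy_slice hν.le (w := fun j x => v j t x - u j t x) (v := fun j => v j t)
      (wt := fun j x => dt (Icc 0 T) (v j) t x - dt (Icc 0 T) (u j) t x)
      (r := fun x => q t x - p t x) (dw := fun i j x => dx i (v j) t x - dx i (u j) t x)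
      (dv := fun i j => dx i (v j) t) (du := fun i j => dx i (u j) t)
      (ddw := fun i j x => dx i (dx i (v j)) t x - dx i (dx i (u j)) t x)
      (dr := fun i x => dx i q t x - dx i p t x)
      (fun j x m => by simp only [(hu.reg_u _).1 t ht' x m, (hv.reg_u _).1 t ht' x m])
      (fun j x m => (hv.reg_u _).1 t ht' x m)
      (fun x m => by simp only [hu.reg_p.1 t ht' x m, hv.reg_p.1 t ht' x m])
      (fun i j x m => by
        simp only [(hu.reg_u j).1.dx i t ht' x m, (hv.reg_u j).1.dx i t ht' x m])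
      (fun j => ((cv j).slice ht').sub ((cu j).slice ht')) (fun j => (cv j).slice ht')
      ((hv.reg_p.2.1.slice ht').sub (hu.reg_p.2.1.slice ht'))
      (fun j => ((cvt j).slice ht').sub ((cut j).slice ht'))
      (fun i j => ((xv j i).2.slice ht').sub ((xu j i).2.slice ht'))
      (fun i j => (xv j i).2.slice ht')
      (fun i j => ((xxv i j i).2.slice ht').sub ((xxu i j i).2.slice ht'))
      (fun i => ((hv.reg_p.2.2 i).2.slice ht').sub ((hu.reg_p.2.2 i).2.slice ht'))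
      (fun i j x => hl_sub ((xv j).has ht' i x) ((xu j).has ht' i x))
      (fun i j x => (xv j).has ht' i x)
      (fun i j x => hl_sub ((xxv i j).has ht' i x) ((xxu i j).has ht' i x))
      (fun i x => hl_sub (hv.reg_p.2.2.has ht' i x) (hu.reg_p.2.2.has ht' i x))
      (fun x => by rw [Finset.sum_sub_distrib, hv.div t ht' x, hu.div t ht' x, sub_zero])
      (fun x => hv.div t ht' x) (fun j x => ?_) (fun i j x hx => hK i j t ht' x hx)
    have a := hu.eqn j t ht' x
    have b := hv.eqn j t ht' x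
    simp only [Fin.sum_univ_three] at a b ⊢
    linear_combination b - a

theorem ns_unique {ν T : ℝ} (hν : 0 < ν) (_hT : 0 < T) {f u v : Fin 3 → ℝ → V → ℝ}
    {p q : ℝ → V → ℝ} (hu : IsClassical ν f (Icc 0 T) u p) (hv : IsClassical ν f (Icc 0 T) v q) :
    ∀ t ∈ Icc 0 T, ∀ x, (∀ j, v j t x = u j t x) ∧ q t x = p t x := fun t ht x =>
  ⟨velocity_unique hν hu hv t ht x, pressure_unique hu hv (velocity_unique hν hu hv) t ht x⟩

end Vale.Agent.Q113
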