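import Vale.Agent.Q113.Build
import Vale.Agent.Q113.Bump

/-!
# P113: values of the selectors and of the spatial profiles
-/

noncomputable section

namespace Vale.Agent.Q113

open MeasureTheory Set

theorem W_ev (σ : ℚ) (a k : ℕ) (s : ℝ) :
    (W σ a k).ev s = s ^ k * plat 4 (4 * (s / σ - a) + 1) := by
  simp only [W, Bump.ev]
  push_cast
  congr 2
  ring

theorem W_ev_of_le {σ : ℚ} {a : ℕ} (k : ℕ) {s : ℝ} (h : s / σ - a ≤ -1 / 2) :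
    (W σ a k).ev s = 0 := by
  rw [W_ev, plat_of_le (by norm_num) (by linarith), mul_zero]

theorem W_ev_of_ge {σ : ℚ} {a : ℕ} (k : ℕ) {s : ℝ} (h : 1 ≤ s / σ - a) :
    (W σ a k).ev s = 0 := by
  rw [W_ev, plat_of_ge (by norm_num) (by linarith), mul_zero]

theorem W_ev_of_mem {σ : ℚ} {a : ℕ} (k : ℕ) {s : ℝ} (h0 : 0 ≤ s / σ - a)
    (h1 : s / σ - a ≤ 1 / 2) : (W σ a k).ev s = s ^ k * kappa := by
  rw [W_ev, plat_of_mem (by linarith) (by linarith)]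

theorem per_W {σ : ℚ} {a : ℕ} (k : ℕ) {s : ℝ} (hσ : 0 < σ) (ha : σ * (a + 1) ≤ 1)
    (h0 : 0 ≤ s) (h1 : s ≤ 1 / 8) : per (W σ a k).ev s = (W σ a k).ev s := by
  have hσ' : (0 : ℝ) < σ := by exact_mod_cast hσ
  have ha' : (σ : ℝ) * (a + 1) ≤ 1 := by exact_mod_cast ha
  have ha0 : (0 : ℝ) ≤ a := Nat.cast_nonneg a
  unfold per
  rw [tsum_eq_single 0]
  · simp
  · intro m hm
    rcases lt_or_gt_of_ne hm with h | h
    · have : (m : ℝ) ≤ -1 := by exact_mod_cast (show m ≤ -1 by omega)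
      refine W_ev_of_le k ?_
      rw [sub_le_iff_le_add, div_le_iff₀ hσ']
      nlinarith
    · have : (1 : ℝ) ≤ m := by exact_mod_cast (show 1 ≤ m by omega)
      refine W_ev_of_ge k ?_
      rw [le_sub_iff_add_le, le_div_iff₀ hσ']
      nlinarith

theorem sel_of_mem {σ : ℚ} {a : ℕ} (k : ℕ) {s : ℝ} (hσ : 0 < σ) (ha : σ * (a + 1) ≤ 1)
    (h0 : 0 ≤ s) (h1 : s ≤ 1 / 8) (hp0 : 0 ≤ s / σ - a) (hp1 : s / σ - a ≤ 1 / 2) :
    sel σ a k s = s ^ k := by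
  rw [sel, per_W k hσ ha h0 h1, W_ev_of_mem k hp0 hp1, mul_div_cancel_right₀ _ kappa_ne]

theorem sel_of_ne {σ : ℚ} {a a' : ℕ} (k : ℕ) {s : ℝ} (hσ : 0 < σ) (ha : σ * (a' + 1) ≤ 1)
    (h0 : 0 ≤ s) (h1 : s ≤ 1 / 8) (hp0 : 0 ≤ s / σ - a) (hp1 : s / σ - a ≤ 1 / 2)
    (hne : a' ≠ a) : sel σ a' k s = 0 := by
  rw [sel, per_W k hσ ha h0 h1]
  rcases lt_or_gt_of_ne hne with h | h
  · have : (a' : ℝ) + 1 ≤ a := by exact_mod_cast h
    rw [W_ev_of_ge k (by linarith), zero_div]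
  · have : (a : ℝ) + 1 ≤ a' := by exact_mod_cast h
    rw [W_ev_of_le k (by linarith), zero_div]

theorem spat_eval {ip ir : Fin 3} {N a : ℕ} {σ l : ℚ} (co : ℕ → ℚ × ℚ × ℚ) {x : V}
    (ha : a < N) (hσ : 0 < σ) (hσN : σ * N ≤ 1) (hl : 0 < l) (hl1 : l ≤ 1)
    (hx0 : 0 ≤ x ip) (hx1 : x ip ≤ 1 / 8)
    (hp0 : 0 ≤ x ip / σ - a) (hp1 : x ip / σ - a ≤ 1 / 2)
    (hy1 : x ir ≤ 1 / 8) (hr0 : 0 ≤ x ir / l) (hr1 : x ir / l ≤ 1 / 2) :
    spat ip ir N σ l co x = (co a).1 + (co a).2.1 * x ip + (co a).2.2 * x ir := by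
  have hl' : (0 : ℝ) < l := by exact_mod_cast hl
  have hy0 : 0 ≤ x ir := by
    have := mul_nonneg hr0 hl'.le
    rwa [div_mul_cancel₀ _ hl'.ne'] at this
  have hb : ∀ b < N, σ * ((b : ℚ) + 1) ≤ 1 := fun b hb =>
    le_trans (mul_le_mul_of_nonneg_left (by exact_mod_cast hb) hσ.le) hσN
  have hs : ∀ k, sel l 0 k (x ir) = x ir ^ k := fun k =>
    sel_of_mem k hl (by simpa using hl1) hy0 hy1 (by simpa using hr0) (by simpa using hr1)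
  unfold spat
  rw [Finset.sum_eq_single a]
  · rw [sel_of_mem 0 hσ (hb a ha) hx0 hx1 hp0 hp1, sel_of_mem 1 hσ (hb a ha) hx0 hx1 hp0 hp1,
      hs, hs]
    simp
  · intro b hbN hne
    have hbN' := hb b (Finset.mem_range.1 hbN)
    rw [sel_of_ne 0 hσ hbN' hx0 hx1 hp0 hp1 hne, sel_of_ne 1 hσ hbN' hx0 hx1 hp0 hp1 hne]
    simp
  · intro h
    exact absurd (Finset.mem_range.2 ha) h

end Vale.Agent.Q113
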