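import Vale.Agent.Q113.Defs

/-!
# P113: trajectories of a sequence of shears

In the time window `[k / N, (k + 1) / N]` the velocity is `θ_k(t) φ_k(x) e_{dir k}`, where `φ_k`
does not depend on the coordinate `dir k` and `θ_k` is a normalised bump.  The trajectory exists,
and every trajectory is the polygonal path through the points `pts k`.
-/

noncomputable section

namespace Vale.Agent.Q113

open MeasureTheory Set Filter Topology

namespace Traj

theorem rho_eq (s : ℝ) : rho s = expNegInvGlue (1 - s ^ 2) := by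
  unfold rho expNegInvGlue
  by_cases h : |s| < 1
  · have h2 : s ^ 2 < 1 := by
      have := abs_lt.1 h
      nlinarith
    rw [if_pos h, if_neg (by linarith)]
    congr 1
    rw [neg_div, one_div]
  · have h2 : 1 ≤ s ^ 2 := by
      have h3 : 1 ≤ |s| := not_lt.1 h
      have := sq_abs s
      nlinarith
    rw [if_neg h, if_pos (by linarith)]

theorem continuous_rho : Continuous rho := by
  have : rho = fun s => expNegInvGlue (1 - s ^ 2) := funext rho_eq
  rw [this]
  exact (expNegInvGlue.contDiff (n := 0)).continuous.comp (by fun_prop)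

theorem rho_nonneg (s : ℝ) : 0 ≤ rho s := by
  rw [rho_eq]; exact expNegInvGlue.nonneg _

theorem rho_of_le {s : ℝ} (h : s ≤ -1) : rho s = 0 := by
  unfold rho
  rw [if_neg]
  intro h2
  linarith [(abs_lt.1 h2).1]

theorem rho_of_ge {s : ℝ} (h : 1 ≤ s) : rho s = 0 := by
  unfold rho
  rw [if_neg]
  intro h2
  linarith [(abs_lt.1 h2).2]

theorem integrable_rho : Integrable rho := by
  refine continuous_rho.integrable_of_hasCompactSupport ?_
  refine HasCompactSupport.intro (isCompact_Icc (a := (-1 : ℝ)) (b := 1)) ?_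
  intro x hx
  rcases le_or_gt x (-1) with h | h
  · exact rho_of_le h
  · exact rho_of_ge (le_of_lt (not_le.1 fun h2 => hx ⟨h.le, h2⟩))

theorem kappa_pos : 0 < kappa := by
  unfold kappa
  refine continuous_rho.integral_pos_of_hasCompactSupport_nonneg_nonzero (x := 0) ?_ rho_nonneg ?_
  · refine HasCompactSupport.intro (isCompact_Icc (a := (-1 : ℝ)) (b := 1)) ?_
    intro x hx
    rcases le_or_gt x (-1) with h | h
    · exact rho_of_le h
    · exact rho_of_ge (le_of_lt (not_le.1 fun h2 => hx ⟨h.le, h2⟩))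
  · unfold rho
    rw [if_pos (by simp)]
    exact (Real.exp_pos _).ne'

theorem sigma_of_le {s : ℝ} (h : s ≤ -1) : sigma s = 0 := by
  unfold sigma
  refine setIntegral_eq_zero_of_forall_eq_zero fun x hx => rho_of_le (le_trans hx h)

theorem sigma_of_ge {s : ℝ} (h : 1 ≤ s) : sigma s = kappa := by
  unfold sigma kappa
  refine setIntegral_eq_integral_of_forall_compl_eq_zero fun x hx => rho_of_ge ?_
  exact le_trans h (le_of_lt (not_le.1 hx))

theorem sigma_nonneg (s : ℝ) : 0 ≤ sigma s := integral_nonneg fun x => rho_nonneg x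

theorem sigma_le (s : ℝ) : sigma s ≤ kappa :=
  setIntegral_le_integral integrable_rho (Eventually.of_forall rho_nonneg)

theorem hasDerivAt_sigma (s : ℝ) : HasDerivAt sigma (rho s) s := by
  have h1 : sigma = fun y => sigma 0 + ∫ r in (0 : ℝ)..y, rho r := by
    funext y
    have := intervalIntegral.integral_Iic_sub_Iic (f := rho) (μ := volume) (a := 0) (b := y)
      integrable_rho.integrableOn integrable_rho.integrableOn
    unfold sigma
    linarith
  rw [h1]
  exact (intervalIntegral.integral_hasDerivAt_right (continuous_rho.intervalIntegrable _ _)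
      (continuous_rho.stronglyMeasurableAtFilter _ _) continuous_rho.continuousAt).const_add _

/-- The normalised time bump of the window `k`. -/
def th (N : ℝ) (k : ℕ) (t : ℝ) : ℝ := 2 * N / kappa * rho (2 * N * t - (2 * k + 1))

/-- Its primitive. -/
def Th (N : ℝ) (k : ℕ) (t : ℝ) : ℝ := sigma (2 * N * t - (2 * k + 1)) / kappa

theorem hasDerivAt_Th (N : ℝ) (k : ℕ) (t : ℝ) : HasDerivAt (Th N k) (th N k t) t := by
  have h1 : HasDerivAt (fun t : ℝ => 2 * N * t - (2 * k + 1)) (2 * N) t := by
    simpa using ((hasDerivAt_id t).const_mul (2 * N)).sub_const (2 * (k : ℝ) + 1)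
  have h2 := ((hasDerivAt_sigma _).comp t h1).div_const kappa
  have h3 : th N k t = rho (2 * N * t - (2 * k + 1)) * (2 * N) / kappa := by
    unfold th
    ring
  rw [h3]
  exact h2

theorem Th_mem (N : ℝ) (k : ℕ) (t : ℝ) : Th N k t ∈ Icc (0 : ℝ) 1 :=
  ⟨div_nonneg (sigma_nonneg _) kappa_pos.le, (div_le_one kappa_pos).2 (sigma_le _)⟩

theorem Th_of_le {N : ℝ} {k : ℕ} {t : ℝ} (h : N * t ≤ k) : Th N k t = 0 := by
  unfold Th
  rw [sigma_of_le (by linarith), zero_div]

theorem Th_of_ge {N : ℝ} {k : ℕ} {t : ℝ} (h : (k : ℝ) + 1 ≤ N * t) : Th N k t = 1 := by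
  unfold Th
  rw [sigma_of_ge (by linarith), div_self kappa_pos.ne']

theorem th_of_le {N : ℝ} {k : ℕ} {t : ℝ} (h : N * t ≤ k) : th N k t = 0 := by
  unfold th
  rw [rho_of_le (by linarith), mul_zero]

theorem th_of_ge {N : ℝ} {k : ℕ} {t : ℝ} (h : (k : ℝ) + 1 ≤ N * t) : th N k t = 0 := by
  unfold th
  rw [rho_of_ge (by linarith), mul_zero]

end Traj

open Traj

/-- The vertices of the polygonal path. -/
def pts (dir : ℕ → Fin 3) (phi : ℕ → V → ℝ) (a : V) : ℕ → V
  | 0 => a
  | k + 1 => pts dir phi a k + phi k (pts dir phi a k) • (Pi.single (dir k) 1 : V)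

namespace Traj

variable (N : ℝ) (dir : ℕ → Fin 3) (phi : ℕ → V → ℝ) (a : V)

/-- The path made of the first `K` shears. -/
def Z (K : ℕ) (t : ℝ) : V :=
  a + ∑ k ∈ Finset.range K, (Th N k t * phi k (pts dir phi a k)) • (Pi.single (dir k) 1 : V)

theorem hasDerivAt_Z (K : ℕ) (t : ℝ) : HasDerivAt (Z N dir phi a K)
    (∑ k ∈ Finset.range K, (th N k t * phi k (pts dir phi a k)) • (Pi.single (dir k) 1 : V)) t := by
  unfold Z
  refine HasDerivAt.const_add _ (HasDerivAt.fun_sum fun k _ => ?_)
  exact ((hasDerivAt_Th N k t).mul_const _).smul_const _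

theorem Z_of_ge (K : ℕ) {t : ℝ} (h : (K : ℝ) ≤ N * t) : Z N dir phi a K t = pts dir phi a K := by
  induction K with
  | zero => simp [Z, pts]
  | succ K ih =>
    have h1 : (K : ℝ) + 1 ≤ N * t := by exact_mod_cast h
    have h2 := ih (by linarith)
    unfold Z at h2 ⊢
    rw [Finset.sum_range_succ, ← add_assoc, h2, Th_of_ge h1, one_mul, pts]

theorem Z_stable {K K' : ℕ} (hK : K ≤ K') {t : ℝ} (h : N * t ≤ K) :
    Z N dir phi a K' t = Z N dir phi a K t := by
  induction K', hK using Nat.le_induction with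
  | base => rfl
  | succ K' hK ih =>
    have h1 : (K : ℝ) ≤ K' := by exact_mod_cast hK
    unfold Z at ih ⊢
    rw [Finset.sum_range_succ, ← add_assoc, ih, Th_of_le (by linarith), zero_mul, zero_smul,
      add_zero]

theorem Z_window {K k : ℕ} (hK : k < K) {t : ℝ} (h1 : (k : ℝ) ≤ N * t) (h2 : N * t ≤ k + 1) :
    Z N dir phi a K t =
      pts dir phi a k + (Th N k t * phi k (pts dir phi a k)) • (Pi.single (dir k) 1 : V) := by
  rw [Z_stable N dir phi a (K := k + 1) hK (by push_cast; exact h2)]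
  have h3 := Z_of_ge N dir phi a k h1
  unfold Z at h3 ⊢
  rw [Finset.sum_range_succ, ← add_assoc, h3]

theorem dZ_window {K k : ℕ} (hK : k < K) {t : ℝ} (h1 : (k : ℝ) ≤ N * t) (h2 : N * t ≤ k + 1) :
    ∑ j ∈ Finset.range K, (th N j t * phi j (pts dir phi a j)) • (Pi.single (dir j) 1 : V) =
      (th N k t * phi k (pts dir phi a k)) • (Pi.single (dir k) 1 : V) := by
  refine Finset.sum_eq_single k (fun j _ hj => ?_) (fun h => absurd (Finset.mem_range.2 hK) h)
  rcases lt_or_gt_of_ne hj with h | h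
  · have : (j : ℝ) + 1 ≤ k := by exact_mod_cast h
    rw [th_of_ge (by linarith), zero_mul, zero_smul]
  · have : (k : ℝ) + 1 ≤ j := by exact_mod_cast h
    rw [th_of_le (by linarith), zero_mul, zero_smul]

theorem add_single_eq_update (x : V) (i : Fin 3) (c : ℝ) :
    x + c • (Pi.single i 1 : V) = Function.update x i (x i + c) := by
  funext j
  by_cases h : j = i
  · subst h; simp
  · simp [h]

end Traj

/-- Trajectories of a sequence of shears, `N` shears per unit of time. -/
theorem traj_gen {N : ℝ} (hN : 0 < N) {u : Fin 3 → ℝ → V → ℝ} {dir : ℕ → Fin 3}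
    {phi : ℕ → V → ℝ}
    (hind : ∀ k x s, phi k (Function.update x (dir k) s) = phi k x)
    (hu : ∀ k : ℕ, ∀ t ∈ Icc ((k : ℝ) / N) (((k : ℝ) + 1) / N), ∀ x j, u j t x =
      if j = dir k then 2 * N / kappa * rho (2 * N * t - (2 * k + 1)) * phi k x else 0) (a : V) :
    (∃ X, IsTrajectory u a X) ∧ ∀ X, IsTrajectory u a X → ∀ k : ℕ,
      X ((k : ℝ) / N) = pts dir phi a k ∧ ∀ t ∈ Icc ((k : ℝ) / N) (((k : ℝ) + 1) / N),
        X t = pts dir phi a k +
          (Th N k t * phi k (pts dir phi a k)) • (Pi.single (dir k) 1 : V) := by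
  have hvec : ∀ k : ℕ, ∀ t ∈ Icc ((k : ℝ) / N) (((k : ℝ) + 1) / N), ∀ x,
      (fun j => u j t x) = (th N k t * phi k x) • (Pi.single (dir k) 1 : V) := by
    intro k t ht x
    funext j
    rw [hu k t ht x j]
    by_cases h : j = dir k
    · subst h; simp [th]
    · simp [h]
  constructor
  · refine ⟨fun t => Z N dir phi a (⌊N * t⌋₊ + 1) t, ?_, fun t ht => ?_⟩
    · have := Z_stable N dir phi a (K := 0) (K' := ⌊N * 0⌋₊ + 1) (Nat.zero_le _) (t := 0) (by simp)
      simp only [this]
      simp [Z]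
    · set k := ⌊N * t⌋₊ with hk
      have h1 : (k : ℝ) ≤ N * t := Nat.floor_le (mul_nonneg hN.le ht)
      have h2 : N * t < k + 1 := Nat.lt_floor_add_one _
      have hev : (fun s => Z N dir phi a (⌊N * s⌋₊ + 1) s) =ᶠ[𝓝 t] Z N dir phi a (k + 1) := by
        have : ∀ᶠ s in 𝓝 t, N * s < k + 1 :=
          (continuous_const.mul continuous_id).continuousAt.eventually_lt continuousAt_const h2
        filter_upwards [this] with s hs
        have h3 : ⌊N * s⌋₊ ≤ k := by
          rcases le_or_gt 0 (N * s) with h | h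
          · exact Nat.lt_succ_iff.1 ((Nat.floor_lt h).2 (by push_cast; exact hs))
          · rw [Nat.floor_of_nonpos h.le]; exact Nat.zero_le _
        exact (Z_stable N dir phi a (Nat.succ_le_succ h3)
          (by push_cast; exact (Nat.lt_floor_add_one _).le)).symm
      have hd := (hasDerivAt_Z N dir phi a (k + 1) t).congr_of_eventuallyEq hev
      rw [dZ_window N dir phi a (Nat.lt_succ_self k) h1 h2.le] at hd
      have hw : t ∈ Icc ((k : ℝ) / N) (((k : ℝ) + 1) / N) :=
        ⟨(div_le_iff₀' hN).2 h1, (le_div_iff₀' hN).2 h2.le⟩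
      have hz : Z N dir phi a (⌊N * t⌋₊ + 1) t = _ :=
        Z_window N dir phi a (Nat.lt_succ_self k) h1 h2.le
      rw [hvec k t hw]
      simp only [hz, add_single_eq_update, hind]
      exact hd.hasDerivWithinAt
  · intro X hX
    have hwin : ∀ k : ℕ, X ((k : ℝ) / N) = pts dir phi a k →
        ∀ t ∈ Icc ((k : ℝ) / N) (((k : ℝ) + 1) / N), X t =
          pts dir phi a k + (Th N k t * phi k (pts dir phi a k)) • (Pi.single (dir k) 1 : V) := by
      intro k hk
      have h0 : (0 : ℝ) ≤ (k : ℝ) / N := div_nonneg (Nat.cast_nonneg k) hN.le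
      have hder : ∀ t ∈ Icc ((k : ℝ) / N) (((k : ℝ) + 1) / N), HasDerivWithinAt X
          ((th N k t * phi k (X t)) • (Pi.single (dir k) 1 : V)) (Ici 0) t := by
        intro t ht
        rw [← hvec k t ht]
        exact hX.2 t (h0.trans ht.1)
      have hcont : ContinuousOn X (Icc ((k : ℝ) / N) (((k : ℝ) + 1) / N)) := fun t ht =>
        (hder t ht).continuousWithinAt.mono fun s hs => h0.trans hs.1
      have hoth : ∀ j, j ≠ dir k → ∀ t ∈ Icc ((k : ℝ) / N) (((k : ℝ) + 1) / N),
          X t j = pts dir phi a k j := by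
        intro j hj t ht
        rw [← hk]
        refine constant_of_has_deriv_right_zero (f := fun s => X s j)
          ((continuous_apply j).comp_continuousOn hcont) (fun s hs => ?_) t ht
        have := (hasDerivWithinAt_pi.1 (hder s (Ico_subset_Icc_self hs)) j).mono
          (Ici_subset_Ici.2 (h0.trans hs.1))
        simpa [hj] using this
      have hphi : ∀ t ∈ Icc ((k : ℝ) / N) (((k : ℝ) + 1) / N),
          phi k (X t) = phi k (pts dir phi a k) := by
        intro t ht
        rw [← hind k (pts dir phi a k) (X t (dir k))]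
        congr 1
        funext j
        by_cases h : j = dir k
        · subst h; simp
        · rw [Function.update_of_ne h, hoth j h t ht]
      intro t ht
      have hc := constant_of_has_deriv_right_zero
        (f := fun s => X s - (Th N k s * phi k (pts dir phi a k)) • (Pi.single (dir k) 1 : V))
        (hcont.sub (fun s _ => (((hasDerivAt_Th N k s).mul_const _).smul_const
          _).continuousAt.continuousWithinAt)) (fun s hs => ?_) t ht
      · have h3 : N * ((k : ℝ) / N) ≤ k := by rw [mul_div_cancel₀ _ hN.ne']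
        have hc' : X t - (Th N k t * phi k (pts dir phi a k)) • (Pi.single (dir k) 1 : V) =
            X ((k : ℝ) / N) - (Th N k ((k : ℝ) / N) * phi k (pts dir phi a k)) •
              (Pi.single (dir k) 1 : V) := hc
        rw [hk, Th_of_le h3, zero_mul, zero_smul, sub_zero] at hc'
        exact eq_add_of_sub_eq hc'
      · have h4 := ((hder s (Ico_subset_Icc_self hs)).mono
          (Ici_subset_Ici.2 (h0.trans hs.1))).sub (((hasDerivAt_Th N k s).mul_const
            (phi k (pts dir phi a k))).smul_const (Pi.single (dir k) 1 : V)).hasDerivWithinAt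
        rw [hphi s (Ico_subset_Icc_self hs), sub_self] at h4
        exact h4
    have hpt : ∀ k : ℕ, X ((k : ℝ) / N) = pts dir phi a k := by
      intro k
      induction k with
      | zero => simpa [pts] using hX.1
      | succ k ih =>
        have h1 : (k : ℝ) / N ≤ ((k : ℝ) + 1) / N := by gcongr; linarith
        have h2 := hwin k ih (((k : ℝ) + 1) / N) ⟨h1, le_rfl⟩
        rw [Th_of_ge (by rw [mul_div_cancel₀ _ hN.ne']), one_mul] at h2
        push_cast
        rw [h2, pts]
    exact fun k => ⟨hpt k, fun t ht => hwin k (hpt k) t ht⟩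

/-- Trajectories of a sequence of shears, five shears per unit of time. -/
theorem traj {u : Fin 3 → ℝ → V → ℝ} {dir : ℕ → Fin 3} {phi : ℕ → V → ℝ}
    (hind : ∀ k x s, phi k (Function.update x (dir k) s) = phi k x)
    (hu : ∀ k : ℕ, ∀ t ∈ Icc ((k : ℝ) / 5) (((k : ℝ) + 1) / 5), ∀ x j, u j t x =
      if j = dir k then 10 / kappa * rho (10 * t - (2 * k + 1)) * phi k x else 0) (a : V) :
    (∃ X, IsTrajectory u a X) ∧
      (∀ X Y, IsTrajectory u a X → IsTrajectory u a Y → ∀ t, 0 ≤ t → Y t = X t) ∧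
      ∀ X, IsTrajectory u a X → ∀ k : ℕ,
      X ((k : ℝ) / 5) = pts dir phi a k ∧ ∀ t ∈ Icc ((k : ℝ) / 5) (((k : ℝ) + 1) / 5),
        ∃ s ∈ Icc (0 : ℝ) 1, X t =
          pts dir phi a k + (s * phi k (pts dir phi a k)) • (Pi.single (dir k) 1 : V) := by
  obtain ⟨h1, h2⟩ := traj_gen (N := 5) (u := u) (by norm_num) hind (fun k t ht x j => by
    rw [hu k t ht x j]
    norm_num) a
  refine ⟨h1, fun X Y hX hY t ht => ?_,
    fun X hX k => ⟨(h2 X hX k).1, fun t ht => ⟨_, Th_mem 5 k t, (h2 X hX k).2 t ht⟩⟩⟩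
  have hk1 : ((⌊5 * t⌋₊ : ℕ) : ℝ) ≤ 5 * t := Nat.floor_le (by linarith)
  have hk2 : 5 * t < (⌊5 * t⌋₊ : ℕ) + 1 := Nat.lt_floor_add_one _
  have hm : t ∈ Icc (((⌊5 * t⌋₊ : ℕ) : ℝ) / 5) ((((⌊5 * t⌋₊ : ℕ) : ℝ) + 1) / 5) :=
    ⟨by linarith, by linarith⟩
  rw [(h2 X hX _).2 t hm, (h2 Y hY _).2 t hm]

end Vale.Agent.Q113
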