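import Vale.Agent.Q113.Build
import Vale.Agent.Q113.Bump

/-!
# P113: the velocity in a time window is a shear
-/

noncomputable section

namespace Vale.Agent.Q113

open MeasureTheory Set

theorem spat_update {ip ir i : Fin 3} (h1 : ip ≠ i) (h2 : ir ≠ i) (N : ℕ) (σ l : ℚ)
    (co : ℕ → ℚ × ℚ × ℚ) (x : V) (s : ℝ) :
    spat ip ir N σ l co (Function.update x i s) = spat ip ir N σ l co x := by
  unfold spat
  rw [Function.update_of_ne h1, Function.update_of_ne h2]

theorem phi_ind (M : Machine) (w : List ℕ) (k : ℕ) (x : V) (s : ℝ) :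
    phi M w k (Function.update x (dir k) s) = phi M w k x := by
  unfold phi dir
  by_cases h1 : k % 5 = 1
  · simp only [h1, true_or, if_true]
    exact spat_update (by decide) (by decide) ..
  by_cases h2 : k % 5 = 2
  · simp only [h2]
    exact spat_update (by decide) (by decide) ..
  by_cases h3 : k % 5 = 3
  · simp only [h3]
    exact spat_update (by decide) (by decide) ..
  by_cases h4 : k % 5 = 4
  · simp only [h4]
    exact spat_update (by decide) (by decide) ..
  simp only [h1, h2, h3, h4, if_false]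

theorem th_ev (w : ℕ) (t : ℝ) : (th w).ev t = rho (10 * t - (2 * w + 1)) := by
  simp [th, Bump.ev]

/-- The periodised time bump of the window `w` in the window `k`. -/
theorem per_th {w : ℕ} (hw : w < 5) (k : ℕ) {t : ℝ}
    (ht : t ∈ Icc ((k : ℝ) / 5) (((k : ℝ) + 1) / 5)) :
    per (th w).ev t = if k % 5 = w then rho (10 * t - (2 * k + 1)) else 0 := by
  obtain ⟨m, r, hr, rfl⟩ : ∃ m r : ℕ, r < 5 ∧ k = 5 * m + r :=
    ⟨k / 5, k % 5, Nat.mod_lt _ (by norm_num), (Nat.div_add_mod k 5).symm⟩
  have hmod : (5 * m + r) % 5 = r := by omega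
  have hw' : (w : ℝ) + 1 ≤ 5 := by exact_mod_cast hw
  have hr' : (r : ℝ) + 1 ≤ 5 := by exact_mod_cast hr
  have hw0 : (0 : ℝ) ≤ w := Nat.cast_nonneg w
  have hr0 : (0 : ℝ) ≤ r := Nat.cast_nonneg r
  obtain ⟨h1, h2⟩ := ht
  push_cast at h1 h2
  have e1 : per (th w).ev t = (th w).ev (t - m) := by
    rw [← per_eq_self (g := (th w).ev) (c := 0) (y := t - m)
      (fun s hs => by rw [th_ev]; exact rho_of_le (by linarith))
      (fun s hs => by rw [th_ev]; exact rho_of_ge (by linarith)) (by linarith) (by linarith),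
      ← per_add_nat _ (t - m) m, sub_add_cancel]
  rw [e1, th_ev, hmod]
  split_ifs with h
  · subst h
    congr 1
    push_cast
    ring
  · rcases lt_or_gt_of_ne h with h | h
    · have : (r : ℝ) + 1 ≤ w := by exact_mod_cast h
      exact rho_of_le (by linarith)
    · have : (w : ℝ) + 1 ≤ r := by exact_mod_cast h
      exact rho_of_ge (by linarith)

theorem mono_ev (ν : ℝ) (w : ℕ) {ip ir : Fin 3} (h : ip ≠ ir) (q : ℚ) (g₁ g₂ : Bump) (t : ℝ)
    (x : V) : (mono w ip ir q g₁ g₂).value ν t x =
      10 / kappa * per (th w).ev t *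
        (q * (per g₁.ev (x ip) / kappa) * (per g₂.ev (x ir) / kappa)) := by
  have hp : ∏ i : Fin 3, (((if i = ip then [g₁] else if i = ir then [g₂] else []) : List Bump).map
      fun g => per g.ev (x i)).prod = per g₁.ev (x ip) * per g₂.ev (x ir) := by
    rw [Fin.prod_univ_three]
    fin_cases ip <;> fin_cases ir <;> simp at h ⊢ <;> ring
  have hk := kappa_ne
  simp only [mono, Term.value]
  rw [hp]
  simp only [List.map_cons, List.map_nil, List.prod_cons, List.prod_nil, if_true]
  push_cast
  rw [show (-3 : ℤ) = -((3 : ℕ) : ℤ) by norm_num, zpow_neg, zpow_natCast]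
  field_simp

theorem stage_sum (ν : ℝ) (w : ℕ) {ip ir : Fin 3} (h : ip ≠ ir) (N : ℕ) (σ l : ℚ)
    (co : ℕ → ℚ × ℚ × ℚ) (t : ℝ) (x : V) :
    ((stage w ip ir N σ l co).map fun τ => τ.value ν t x).sum =
      10 / kappa * per (th w).ev t * spat ip ir N σ l co x := by
  unfold stage spat
  induction N with
  | zero => simp
  | succ N ih =>
    rw [List.range_succ, List.flatMap_append, List.map_append, List.sum_append, ih,
      Finset.sum_range_succ]
    simp only [List.flatMap_cons, List.flatMap_nil, List.append_nil, List.map_cons, List.map_nil,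
      List.sum_cons, List.sum_nil, mono_ev ν w h, sel]
    ring

theorem ini_ev (ν : ℝ) (q : ℚ) (t : ℝ) (x : V) :
    (ini q).value ν t x = 10 / kappa * rho (10 * t - 1) * q := by
  simp only [ini, Term.value]
  simp [th_ev]
  ring

theorem vel_window (ν : ℝ) (M : Machine) (w : List ℕ) (k : ℕ) :
    ∀ t ∈ Icc ((k : ℝ) / 5) (((k : ℝ) + 1) / 5), ∀ x j,
      force ν (vel (M, w)) j t x =
        if j = dir k then 10 / kappa * rho (10 * t - (2 * k + 1)) * phi M w k x else 0 := by
  intro t ht x j
  have hini : rho (10 * t - 1) = if k = 0 then rho (10 * t - (2 * k + 1)) else 0 := by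
    split_ifs with h
    · subst h; simp
    · have : (1 : ℝ) ≤ k := by exact_mod_cast Nat.one_le_iff_ne_zero.2 h
      exact rho_of_ge (by linarith [ht.1])
  have e0 : force ν (vel (M, w)) 0 t x =
      10 / kappa * per (th 2).ev t * spat 2 1 (nn M) (lam M) (lam M) (co2 M) x +
        10 / kappa * rho (10 * t - 1) * ((lam M * val (bb M) (start M w) : ℚ) : ℝ) := by
    rw [← stage_sum ν 2 (by decide), ← ini_ev ν _ t x]
    simp [force, vel, Uper, Uini]
  have e1 : force ν (vel (M, w)) 1 t x =
      10 / kappa * per (th 3).ev t * spat 2 0 (nn M) (lam M) (lam M) (co3 M) x := by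
    rw [← stage_sum ν 3 (by decide)]
    simp [force, vel, Uper, Uini]
  have e2 : force ν (vel (M, w)) 2 t x =
      10 / kappa * per (th 1).ev t * spat 0 1 (nn M) (lam M / nn M) (lam M) (co1 M) x +
        10 / kappa * per (th 4).ev t * spat 0 1 (nn M) (lam M / nn M) (lam M) (co4 M) x := by
    rw [← stage_sum ν 1 (by decide), ← stage_sum ν 4 (by decide)]
    simp [force, vel, Uper, Uini]
  have hk : k % 5 = 0 ∨ k % 5 = 1 ∨ k % 5 = 2 ∨ k % 5 = 3 ∨ k % 5 = 4 := by omega
  have hj : j = 0 ∨ j = 1 ∨ j = 2 := by fin_cases j <;> simp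
  have hk0 : k % 5 ≠ 0 → k ≠ 0 := fun h h' => h (by rw [h'])
  rcases hj with rfl | rfl | rfl
  · rw [e0, per_th (by norm_num) k ht, hini]
    unfold phi dir
    rcases hk with h | h | h | h | h
    · by_cases h0 : k = 0 <;> simp [h, h0]
    all_goals simp [h, hk0 (by omega)]
  · rw [e1, per_th (by norm_num) k ht]
    unfold phi dir
    rcases hk with h | h | h | h | h <;> simp [h]
  · rw [e2, per_th (by norm_num) k ht, per_th (by norm_num) k ht]
    unfold phi dir
    rcases hk with h | h | h | h | h <;> simp [h]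

end Vale.Agent.Q113
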