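import Vale.Agent.Q113.Sim
import Vale.Agent.Q113.Comp
import Vale.Agent.Q113.Traj
import Vale.Agent.Q113.Spat
import Vale.Agent.Q113.Win

/-!
# P113: the orbit of the particle at the times `k/5`
-/

noncomputable section

namespace Vale.Agent.Q113

open Set

theorem cB_ne (M : Machine) (j : ℕ) : cB M j ≠ 0 := by
  have : (0 : ℚ) < bb M := by unfold bb kk; positivity
  unfold cB
  positivity

theorem cD_ne (M : Machine) (j : ℕ) : cD M j ≠ 0 := by
  have : (0 : ℚ) < bb M := by unfold bb kk; positivity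
  unfold cD
  positivity

theorem lam_mul (M : Machine) : lam M * nn M = 1 / 8 := by
  have : (0 : ℚ) < nn M := by exact_mod_cast nn_pos M
  unfold lam
  field_simp

theorem lam_le (M : Machine) : lam M ≤ 1 / 8 := by
  have h1 : (1 : ℚ) ≤ nn M := by exact_mod_cast nn_pos M
  have h2 := lam_mul M
  have h3 := lam_pos M
  nlinarith

theorem add_single0 (a b c s : ℝ) :
    (![a, b, c] : V) + s • (Pi.single 0 1 : V) = ![a + s, b, c] := by
  funext i; fin_cases i <;> simp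

theorem add_single1 (a b c s : ℝ) :
    (![a, b, c] : V) + s • (Pi.single 1 1 : V) = ![a, b + s, c] := by
  funext i; fin_cases i <;> simp

theorem add_single2 (a b c s : ℝ) :
    (![a, b, c] : V) + s • (Pi.single 2 1 : V) = ![a, b, c + s] := by
  funext i; fin_cases i <;> simp

/-- A stage whose selector reads the first coordinate at the scale `lam / nn`. -/
theorem spat_x (M : Machine) (co : ℕ → ℚ × ℚ × ℚ) {x y : ℚ} {a : ℕ} (z : ℝ)
    (hx0 : 0 ≤ x) (hx1 : x ≤ 1 / 2) (hy0 : 0 ≤ y) (hy1 : y ≤ 1 / 2) (ha : a < nn M)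
    (hp0 : 0 ≤ (nn M : ℚ) * x - a) (hp1 : (nn M : ℚ) * x - a ≤ 1 / 2) :
    spat 0 1 (nn M) (lam M / nn M) (lam M) co ![((lam M * x : ℚ) : ℝ), ((lam M * y : ℚ) : ℝ), z] =
      (((co a).1 + (co a).2.1 * (lam M * x) + (co a).2.2 * (lam M * y) : ℚ) : ℝ) := by
  have hN : (0 : ℚ) < nn M := by exact_mod_cast nn_pos M
  have hl := lam_pos M
  have hl8 := lam_le M
  have e1 : ((lam M * x : ℚ) : ℝ) / ((lam M / nn M : ℚ) : ℝ) - a =
      (((nn M : ℚ) * x - a : ℚ) : ℝ) := by
    have : lam M * x / (lam M / nn M) = nn M * x := by field_simp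
    rw [← Rat.cast_div, this]; push_cast; ring
  have e2 : ((lam M * y : ℚ) : ℝ) / ((lam M : ℚ) : ℝ) = ((y : ℚ) : ℝ) := by
    have : lam M * y / lam M = y := by field_simp
    rw [← Rat.cast_div, this]
  rw [spat_eval (a := a) co ha (by positivity) (by rw [div_mul_cancel₀ _ hN.ne']; linarith) hl
    (by linarith)]
  · simp
  · simp only [Matrix.cons_val_zero]; exact_mod_cast (by positivity : 0 ≤ lam M * x)
  · simp only [Matrix.cons_val_zero]
    have : lam M * x ≤ 1 / 8 := by nlinarith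
    have h := (Rat.cast_le (K := ℝ)).2 this
    simpa using h
  · simp only [Matrix.cons_val_zero]; rw [e1]; exact_mod_cast hp0
  · simp only [Matrix.cons_val_zero]; rw [e1]
    have h := (Rat.cast_le (K := ℝ)).2 hp1
    simpa using h
  · simp only [Matrix.cons_val_one, Matrix.cons_val_zero]
    have : lam M * y ≤ 1 / 8 := by nlinarith
    have h := (Rat.cast_le (K := ℝ)).2 this
    simpa using h
  · simp only [Matrix.cons_val_one, Matrix.cons_val_zero]; rw [e2]; exact_mod_cast hy0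
  · simp only [Matrix.cons_val_one, Matrix.cons_val_zero]; rw [e2]
    have h := (Rat.cast_le (K := ℝ)).2 hy1
    simpa using h

/-- A stage whose selector reads the third coordinate at the scale `lam`. -/
theorem spat_z (M : Machine) (co : ℕ → ℚ × ℚ × ℚ) (ir : Fin 3) {x y : ℚ} {j : ℕ} {p : V}
    (hx0 : 0 ≤ x) (hx1 : x ≤ 1 / 2) (hy0 : 0 ≤ y) (hy1 : y ≤ 1 / 2) (hj : j < nn M)
    (hz : p 2 = ((lam M * (j + x) : ℚ) : ℝ)) (hr : p ir = ((lam M * y : ℚ) : ℝ)) :
    spat 2 ir (nn M) (lam M) (lam M) co p =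
      (((co j).1 + (co j).2.1 * (lam M * (j + x)) + (co j).2.2 * (lam M * y) : ℚ) : ℝ) := by
  have hN : (0 : ℚ) < nn M := by exact_mod_cast nn_pos M
  have hl := lam_pos M
  have hl8 := lam_le M
  have hlN := lam_mul M
  have hj' : (j : ℚ) + 1 ≤ nn M := by exact_mod_cast hj
  have e1 : ((lam M * (j + x) : ℚ) : ℝ) / ((lam M : ℚ) : ℝ) - j = ((x : ℚ) : ℝ) := by
    have : lam M * (j + x) / lam M = j + x := by field_simp
    rw [← Rat.cast_div, this]; push_cast; ring
  have e2 : ((lam M * y : ℚ) : ℝ) / ((lam M : ℚ) : ℝ) = ((y : ℚ) : ℝ) := by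
    have : lam M * y / lam M = y := by field_simp
    rw [← Rat.cast_div, this]
  rw [spat_eval (a := j) co hj hl (by linarith) hl (by linarith), hz, hr]
  · push_cast; ring
  · rw [hz]; exact_mod_cast (by positivity : 0 ≤ lam M * (j + x))
  · rw [hz]
    have : lam M * (j + x) ≤ 1 / 8 := by nlinarith
    have h := (Rat.cast_le (K := ℝ)).2 this
    simpa using h
  · rw [hz, e1]; exact_mod_cast hx0
  · rw [hz, e1]
    have h := (Rat.cast_le (K := ℝ)).2 hx1
    simpa using h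
  · rw [hr]
    have : lam M * y ≤ 1 / 8 := by nlinarith
    have h := (Rat.cast_le (K := ℝ)).2 this
    simpa using h
  · rw [hr, e2]; exact_mod_cast hy0
  · rw [hr, e2]
    have h := (Rat.cast_le (K := ℝ)).2 hy1
    simpa using h

/-- The positions of the particle that starts at the origin. -/
def orb (M : Machine) (w : List ℕ) (k : ℕ) : V := pts dir (phi M w) 0 k

theorem orb_succ (M : Machine) (w : List ℕ) (k : ℕ) :
    orb M w (k + 1) = orb M w k + phi M w k (orb M w k) • (Pi.single (dir k) 1 : V) := rfl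

/-- The point that encodes the configuration after `t` steps. -/
def enc (M : Machine) (w : List ℕ) (t : ℕ) : V :=
  ![((lam M * xs M w t : ℚ) : ℝ), ((lam M * ys M w t : ℚ) : ℝ), 0]

theorem orb_one (M : Machine) (w : List ℕ) : orb M w 1 = enc M w 0 := by
  have h0 : orb M w 0 = ![0, 0, 0] := by
    funext i; fin_cases i <;> rfl
  have hd : dir 0 = 0 := by decide
  rw [orb_succ, h0, hd, add_single0]
  simp [phi, enc, xs, ys, cfg, val]

variable {M : Machine} {w : List ℕ} {t : ℕ}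

theorem stage1 (h : orb M w (5 * t + 1) = enc M w t) (hL : Loc M w t) :
    orb M w (5 * t + 2) = ![((lam M * xs M w t : ℚ) : ℝ), ((lam M * ys M w t : ℚ) : ℝ),
      (((co1 M (ws M w t)).1 + lam M * xs M w t : ℚ) : ℝ)] := by
  obtain ⟨hx0, hx1, hy0, hy1, ha, hp0, hp1⟩ := hL
  have hk : (5 * t + 1) % 5 = 1 := by omega
  have hd : dir (5 * t + 1) = 2 := by simp [dir, hk]
  rw [orb_succ, h, hd, phi, if_pos hk, enc, spat_x M _ _ hx0 hx1 hy0 hy1 ha hp0 hp1, add_single2]
  simp [co1]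

theorem stage_run (h : orb M w (5 * t + 1) = enc M w t) (hL : Loc M w t) (hS : Stp M w t)
    (hL' : Loc M w (t + 1)) (hh : hlt M (ws M w t) = false) :
    orb M w (5 * t + 2) 2 = ((lam M * (lev M (ws M w t) + xs M w t) : ℚ) : ℝ) ∧
      orb M w (5 * t + 3) 2 = ((lam M * (lev M (ws M w t) + xs M w t) : ℚ) : ℝ) ∧
      orb M w (5 * t + 4) 2 = ((lam M * (lev M (ws M w t) + xs M w t) : ℚ) : ℝ) ∧
      orb M w (5 * t + 5) = enc M w (t + 1) ∧ orb M w (5 * (t + 1) + 1) = enc M w (t + 1) := by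
  have h2 := stage1 h hL
  obtain ⟨hx0, hx1, hy0, hy1, ha, hp0, hp1⟩ := hL
  obtain ⟨hx0', hx1', hy0', hy1', ha', hp0', hp1'⟩ := hL'
  obtain ⟨hj, ex, ey, ei⟩ := hS
  have hB := cB_ne M (lev M (ws M w t))
  have hD := cD_ne M (lev M (ws M w t))
  have e2 : (co1 M (ws M w t)).1 + lam M * xs M w t = lam M * (lev M (ws M w t) + xs M w t) := by
    simp only [co1, hh]; simp; ring
  rw [e2] at h2
  have h3 : orb M w (5 * t + 3) = ![((lam M * xs M w (t + 1) : ℚ) : ℝ),
      ((lam M * ys M w t : ℚ) : ℝ), ((lam M * (lev M (ws M w t) + xs M w t) : ℚ) : ℝ)] := by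
    have hk : (5 * t + 2) % 5 = 2 := by omega
    have hd : dir (5 * t + 2) = 0 := by simp [dir, hk]
    rw [orb_succ, h2, hd, phi, if_neg (by omega), if_pos hk,
      spat_z M _ 1 hx0 hx1 hy0 hy1 hj rfl rfl, add_single0, ← Rat.cast_add, ex]
    congr 2
    simp only [co2]; ring
  have h4 : orb M w (5 * t + 4) = ![((lam M * xs M w (t + 1) : ℚ) : ℝ),
      ((lam M * ys M w (t + 1) : ℚ) : ℝ),
      ((lam M * (lev M (ws M w t) + xs M w t) : ℚ) : ℝ)] := by
    have hk : (5 * t + 3) % 5 = 3 := by omega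
    have hd : dir (5 * t + 3) = 1 := by simp [dir, hk]
    rw [orb_succ, h3, hd, phi, if_neg (by omega), if_neg (by omega), if_pos hk,
      spat_z M _ 0 hx0 hx1 hx0' hx1' hj rfl rfl, add_single1, ← Rat.cast_add, ey, ex]
    congr 3
    simp only [co3]; field_simp; ring
  have h5 : orb M w (5 * t + 5) = enc M w (t + 1) := by
    have hk : (5 * t + 4) % 5 = 4 := by omega
    have hd : dir (5 * t + 4) = 2 := by simp [dir, hk]
    rw [orb_succ, h4, hd, phi, if_neg (by omega), if_neg (by omega), if_neg (by omega), if_pos hk,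
      spat_x M _ _ hx0' hx1' hy0' hy1' ha' hp0' hp1', add_single2, ← Rat.cast_add, enc]
    have : lam M * (lev M (ws M w t) + xs M w t) + ((co4 M (ws M w (t + 1))).1 +
        (co4 M (ws M w (t + 1))).2.1 * (lam M * xs M w (t + 1)) +
        (co4 M (ws M w (t + 1))).2.2 * (lam M * ys M w (t + 1))) = 0 := by
      simp only [co4, ei, ey]; field_simp; ring
    rw [this]; simp
  refine ⟨by rw [h2]; rfl, by rw [h3]; rfl, by rw [h4]; rfl, h5, ?_⟩
  have hk : (5 * t + 5) % 5 = 0 := by omega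
  rw [show 5 * (t + 1) + 1 = (5 * t + 5) + 1 by ring, orb_succ, h5, phi, if_neg (by omega),
    if_neg (by omega), if_neg (by omega), if_neg (by omega), if_neg (by omega)]
  simp

theorem orb_enc (hM : M.WF) (hw : M.Word w) (t : ℕ) (h : ∀ t' < t, hlt M (ws M w t') = false) :
    orb M w (5 * t + 1) = enc M w t := by
  obtain ⟨hL, hS, -⟩ := sim hM hw
  induction t with
  | zero => exact orb_one M w
  | succ t ih =>
    have h' : ∀ t' < t, hlt M (ws M w t') = false := fun t' ht' => h t' (by omega)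
    exact (stage_run (ih h') (hL t) (hS t) (hL (t + 1)) (h t (by omega))).2.2.2.2

/-- The corners of the box. -/
def boxLo : Fin 3 → ℚ := ![-1 / 2, -1 / 2, 1 / 3]

def boxHi : Fin 3 → ℚ := ![1 / 2, 1 / 2, 2 / 3]

theorem box_lt (i : Fin 3) : boxLo i < boxHi i := by
  fin_cases i <;> simp [boxLo, boxHi] <;> norm_num

theorem orb_halt (hM : M.WF) (hw : M.Word w) (h : M.Halts w) :
    ∃ k, InBox boxLo boxHi (orb M w k) := by
  classical
  obtain ⟨hL, -, hH⟩ := sim hM hw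
  have hex := hH.2 h
  have h' : ∀ t' < Nat.find hex, hlt M (ws M w t') = false := fun t' ht' => by
    simpa using Nat.find_min hex ht'
  have h1 := Nat.find_spec hex
  have h2 := stage1 (orb_enc hM hw _ h') (hL _)
  obtain ⟨hx0, hx1, hy0, hy1, -⟩ := hL (Nat.find hex)
  have hl := lam_pos M
  have hl8 := lam_le M
  refine ⟨5 * Nat.find hex + 2, 0, fun i => ?_⟩
  rw [h2]
  generalize xs M w (Nat.find hex) = x at *
  generalize ys M w (Nat.find hex) = y at *
  have a0 : 0 ≤ lam M * x := by positivity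
  have a1 : lam M * x ≤ 1 / 16 := by nlinarith
  have b0 : 0 ≤ lam M * y := by positivity
  have b1 : lam M * y ≤ 1 / 16 := by nlinarith
  simp only [Pi.zero_apply, Int.cast_zero, add_zero]
  fin_cases i
  · exact ⟨Rat.cast_lt.2 (show (-1 / 2 : ℚ) < lam M * x by linarith),
      Rat.cast_lt.2 (show lam M * x < (1 / 2 : ℚ) by linarith)⟩
  · exact ⟨Rat.cast_lt.2 (show (-1 / 2 : ℚ) < lam M * y by linarith),
      Rat.cast_lt.2 (show lam M * y < (1 / 2 : ℚ) by linarith)⟩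
  · have e : (co1 M (ws M w (Nat.find hex))).1 = 1 / 2 := by simp only [co1, h1]; simp
    rw [e]
    exact ⟨Rat.cast_lt.2 (show (1 / 3 : ℚ) < 1 / 2 + lam M * x by linarith),
      Rat.cast_lt.2 (show 1 / 2 + lam M * x < (2 / 3 : ℚ) by linarith)⟩

theorem orb_run (hM : M.WF) (hw : M.Word w) (h : ¬M.Halts w) (k : ℕ) :
    0 ≤ orb M w k 2 ∧ orb M w k 2 ≤ 1 / 8 := by
  obtain ⟨hL, hS, hH⟩ := sim hM hw
  have hn : ∀ t, hlt M (ws M w t) = false := fun t => by
    by_contra hc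
    exact h (hH.1 ⟨t, by simpa using hc⟩)
  rcases Nat.eq_zero_or_pos k with rfl | hk
  · have : orb M w 0 2 = 0 := rfl
    rw [this]; norm_num
  obtain ⟨t, r, hr, rfl⟩ : ∃ t r, r < 5 ∧ k = 5 * t + 1 + r :=
    ⟨(k - 1) / 5, (k - 1) % 5, Nat.mod_lt _ (by norm_num), by omega⟩
  have h1 := orb_enc hM hw t fun t' _ => hn t'
  have hLt := hL t
  have hSt := hS t
  obtain ⟨h2, h3, h4, h5, -⟩ := stage_run h1 hLt hSt (hL (t + 1)) (hn t)
  have hz : (0 : ℝ) ≤ ((lam M * (lev M (ws M w t) + xs M w t) : ℚ) : ℝ) ∧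
      ((lam M * (lev M (ws M w t) + xs M w t) : ℚ) : ℝ) ≤ 1 / 8 := by
    obtain ⟨hx0, hx1, -⟩ := hLt
    have hj : (lev M (ws M w t) : ℚ) + 1 ≤ nn M := by exact_mod_cast hSt.1
    have hl := lam_pos M
    have hlN := lam_mul M
    refine ⟨by exact_mod_cast (by positivity : 0 ≤ lam M * (lev M (ws M w t) + xs M w t)), ?_⟩
    have : lam M * (lev M (ws M w t) + xs M w t) ≤ 1 / 8 := by nlinarith
    have h := (Rat.cast_le (K := ℝ)).2 this
    simpa using h
  have he : ∀ s, enc M w s 2 = 0 := fun s => rfl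
  interval_cases r
  · rw [h1, he]; norm_num
  · rw [show 5 * t + 1 + 1 = 5 * t + 2 by ring, h2]; exact hz
  · rw [show 5 * t + 1 + 2 = 5 * t + 3 by ring, h3]; exact hz
  · rw [show 5 * t + 1 + 3 = 5 * t + 4 by ring, h4]; exact hz
  · rw [show 5 * t + 1 + 4 = 5 * t + 5 by ring, h5, he]; norm_num

/-- The trajectory statement. -/
theorem traj_vel (ν : ℝ) (hM : M.WF) (hw : M.Word w) :
    ∃ X, IsTrajectory (force ν (vel (M, w))) 0 X ∧
      (∀ Y, IsTrajectory (force ν (vel (M, w))) 0 Y → ∀ t, 0 ≤ t → Y t = X t) ∧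
      ((∃ t, 0 ≤ t ∧ InBox boxLo boxHi (X t)) ↔ M.Halts w) := by
  obtain ⟨⟨X, hX⟩, huniq, hall⟩ := traj (phi_ind M w) (vel_window ν M w) 0
  refine ⟨X, hX, fun Y hY => huniq X Y hX hY, ?_, fun h => ?_⟩
  · rintro ⟨t, ht, m, hm⟩
    by_contra hn
    have hk1 : ((⌊5 * t⌋₊ : ℕ) : ℝ) ≤ 5 * t := Nat.floor_le (by linarith)
    have hk2 : 5 * t < (⌊5 * t⌋₊ : ℕ) + 1 := Nat.lt_floor_add_one _
    obtain ⟨s, ⟨hs0, hs1⟩, hs⟩ := (hall X hX ⌊5 * t⌋₊).2 t ⟨by linarith, by linarith⟩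
    have a := orb_run hM hw hn ⌊5 * t⌋₊
    have b := orb_run hM hw hn (⌊5 * t⌋₊ + 1)
    rw [orb_succ] at b
    have hz : X t 2 = orb M w ⌊5 * t⌋₊ 2 +
        s * (phi M w ⌊5 * t⌋₊ (orb M w ⌊5 * t⌋₊) * (Pi.single (dir ⌊5 * t⌋₊) 1 : V) 2) := by
      rw [hs]; simp only [orb, Pi.add_apply, Pi.smul_apply, smul_eq_mul]; ring
    simp only [Pi.add_apply, Pi.smul_apply, smul_eq_mul] at b
    generalize phi M w ⌊5 * t⌋₊ (orb M w ⌊5 * t⌋₊) * (Pi.single (dir ⌊5 * t⌋₊) 1 : V) 2 = d at *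
    generalize orb M w ⌊5 * t⌋₊ 2 = z at *
    have z0 : 0 ≤ X t 2 := by rw [hz]; nlinarith [a.1, b.1]
    have z1 : X t 2 ≤ 1 / 8 := by rw [hz]; nlinarith [a.2, b.2]
    have h2 := hm 2
    have e1 : ((boxLo 2 : ℚ) : ℝ) = 1 / 3 := by simp [boxLo]
    have e2 : ((boxHi 2 : ℚ) : ℝ) = 2 / 3 := by simp [boxHi]
    rw [e1, e2] at h2
    have m0 : (0 : ℝ) < m 2 := by linarith [h2.1]
    have m1 : (m 2 : ℝ) < 1 := by linarith [h2.2]
    have m0' : (0 : ℤ) < m 2 := by exact_mod_cast m0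
    have m1' : m 2 < (1 : ℤ) := by exact_mod_cast m1
    omega
  · obtain ⟨k, hk⟩ := orb_halt hM hw h
    refine ⟨(k : ℝ) / 5, by positivity, ?_⟩
    rw [(hall X hX k).1]
    exact hk

end Vale.Agent.Q113
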