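import Vale.Agent.Q113.Defs

/-!
# P113: integration by parts on the torus
-/

noncomputable section

namespace Vale.Agent.Q113

open MeasureTheory Set

theorem insertNth_add_single (i : Fin 3) (s r : ℝ) (y : Fin 2 → ℝ) :
    (Fin.insertNth i (s + r) y : V) = (Fin.insertNth i s y : V) + r • Pi.single i (1 : ℝ) := by
  funext j
  rcases Fin.eq_self_or_eq_succAbove i j with rfl | ⟨k, rfl⟩
  · simp
  · simp

/-- Fubini on the unit cube, with the `i`-th coordinate integrated first. -/
theorem integral_cube (i : Fin 3) {H : V → ℝ} (hH : Continuous H) :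
    ∫ x in Icc (0 : V) 1, H x =
      ∫ y in Icc (0 : Fin 2 → ℝ) 1, ∫ s in Icc (0 : ℝ) 1, H (Fin.insertNth i s y) := by
  have hm := (volume_preserving_piFinSuccAbove (fun _ : Fin 3 => ℝ) i).symm
  have he := hm.setIntegral_preimage_emb (MeasurableEquiv.measurableEmbedding _) H
    (Icc (0 : V) 1)
  have hpre : (MeasurableEquiv.piFinSuccAbove (fun _ : Fin 3 => ℝ) i).symm ⁻¹' Icc (0 : V) 1 =
      Icc (0 : ℝ) 1 ×ˢ Icc (0 : Fin 2 → ℝ) 1 := by
    ext ⟨s, y⟩
    simp only [mem_preimage, mem_prod]
    change (Fin.insertNth i s y : V) ∈ Icc (0 : V) 1 ↔ _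
    rw [Fin.insertNth_mem_Icc]
    rfl
  rw [← he, hpre]
  have hc : Continuous fun p : ℝ × (Fin 2 → ℝ) => H (Fin.insertNth i p.1 p.2) :=
    hH.comp (Continuous.finInsertNth i continuous_fst continuous_snd)
  have hi : IntegrableOn (fun p : ℝ × (Fin 2 → ℝ) => H (Fin.insertNth i p.1 p.2))
      (Icc (0 : ℝ) 1 ×ˢ Icc (0 : Fin 2 → ℝ) 1) (volume.prod volume) :=
    hc.continuousOn.integrableOn_compact (isCompact_Icc.prod isCompact_Icc)
  have h2 := integral_prod_symm (μ := volume.restrict (Icc (0 : ℝ) 1))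
    (ν := volume.restrict (Icc (0 : Fin 2 → ℝ) 1))
    (fun p : ℝ × (Fin 2 → ℝ) => H (Fin.insertNth i p.1 p.2))
    (by rw [Measure.prod_restrict]; exact hi)
  rw [Measure.prod_restrict] at h2
  exact h2

/-- The integral over the unit cube of a partial derivative of a periodic function vanishes. -/
theorem integral_dx_eq_zero {G G' : V → ℝ} (i : Fin 3)
    (hper : ∀ (x : V) (m : Fin 3 → ℤ), G (fun k => x k + m k) = G x)
    (hd : ∀ x, HasLineDerivAt ℝ G (G' x) x (Pi.single i 1)) (hc : Continuous G') :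
    ∫ x in Icc (0 : V) 1, G' x = 0 := by
  rw [integral_cube i hc]
  refine setIntegral_eq_zero_of_forall_eq_zero fun y _ => ?_
  have hder : ∀ s : ℝ, HasDerivAt (fun s : ℝ => G (Fin.insertNth i s y))
      (G' (Fin.insertNth i s y)) s := by
    intro s
    have h1 : HasDerivAt (fun r : ℝ => G (Fin.insertNth i s y + r • Pi.single i (1 : ℝ)))
        (G' (Fin.insertNth i s y)) (s - s) := by
      rw [sub_self]; exact hd _
    have h2 := h1.comp_sub_const s s
    refine h2.congr_of_eventuallyEq (Filter.Eventually.of_forall fun r => ?_)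
    simp only
    rw [← insertNth_add_single, add_sub_cancel]
  have hcy : Continuous fun s : ℝ => G' (Fin.insertNth i s y) :=
    hc.comp (Continuous.finInsertNth i continuous_id continuous_const)
  rw [integral_Icc_eq_integral_Ioc, ← intervalIntegral.integral_of_le zero_le_one,
    intervalIntegral.integral_eq_sub_of_hasDerivAt (fun s _ => hder s)
      (hcy.intervalIntegrable _ _), sub_eq_zero]
  have := hper (Fin.insertNth i (0 : ℝ) y) (Pi.single i 1)
  rw [← this]
  congr 1
  have h3 := insertNth_add_single i 0 1 y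
  rw [zero_add] at h3
  rw [h3]
  funext k
  by_cases hk : k = i
  · subst hk; simp
  · simp [Pi.single_eq_of_ne hk]

theorem Cont.slice {I : Set ℝ} {g : ℝ → V → ℝ} (hg : Cont I g) {t : ℝ} (ht : t ∈ I) :
    Continuous (g t) :=
  ContinuousOn.comp_continuous (f := fun x : V => (t, x)) hg (by fun_prop)
    fun _ => ⟨ht, mem_univ _⟩

theorem HasDx.has {I : Set ℝ} {g : ℝ → V → ℝ} (hg : HasDx I g) {t : ℝ} (ht : t ∈ I) (i : Fin 3)
    (x : V) : HasLineDerivAt ℝ (g t) (dx i g t x) x (Pi.single i 1) :=
  ((hg i).1 t ht x).hasLineDerivAt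

/-- A function all of whose partial derivatives vanish is constant. -/
theorem const_of_dx {G : V → ℝ} (hd : ∀ i x, HasLineDerivAt ℝ G 0 x (Pi.single i 1)) (x : V) :
    G x = G 0 := by
  have key : ∀ (i : Fin 3) (y : V) (s : ℝ), G (y + s • Pi.single i (1 : ℝ)) = G y := by
    intro i y s
    have hder : ∀ r : ℝ, HasDerivAt (fun r : ℝ => G (y + r • Pi.single i (1 : ℝ))) 0 r := by
      intro r
      have h1 : HasDerivAt (fun r' : ℝ => G (y + r • Pi.single i (1 : ℝ) +
          r' • Pi.single i (1 : ℝ))) 0 (r - r) := by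
        rw [sub_self]; exact hd i _
      refine (h1.comp_sub_const r r).congr_of_eventuallyEq
        (Filter.Eventually.of_forall fun r' => ?_)
      simp only
      rw [add_assoc, ← add_smul, add_sub_cancel]
    have := is_const_of_deriv_eq_zero (fun r => (hder r).differentiableAt)
      (fun r => (hder r).deriv) s 0
    simpa using this
  have hx : x = 0 + x 0 • Pi.single 0 (1 : ℝ) + x 1 • Pi.single 1 (1 : ℝ) +
      x 2 • Pi.single 2 (1 : ℝ) := by
    funext k; fin_cases k <;> simp
  rw [hx, key, key, key]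

theorem volume_cube : (volume (Icc (0 : V) 1)).toReal = 1 := by
  simp [Real.volume_Icc_pi]

/-- The velocity determines the pressure. -/
theorem pressure_unique {ν : ℝ} {I : Set ℝ} {f u v : Fin 3 → ℝ → V → ℝ} {p q : ℝ → V → ℝ}
    (hu : IsClassical ν f I u p) (hv : IsClassical ν f I v q)
    (h : ∀ t ∈ I, ∀ x j, v j t x = u j t x) : ∀ t ∈ I, ∀ x, q t x = p t x := by
  intro t ht
  have e0 : ∀ j, v j t = u j t := fun j => funext fun x => h t ht x j
  have e1 : ∀ i j, dx i (v j) t = dx i (u j) t := fun i j => funext fun x => by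
    simp only [dx, e0]
  have e2 : ∀ i j x, dx i (dx i (v j)) t x = dx i (dx i (u j)) t x := fun i j x => by
    change lineDeriv ℝ (dx i (v j) t) x _ = lineDeriv ℝ (dx i (u j) t) x _
    rw [e1]
  have e3 : ∀ j x, dt I (v j) t x = dt I (u j) t x := fun j x =>
    derivWithin_congr (fun s hs => h s hs x j) (h t ht x j)
  have e4 : ∀ j x, dx j q t x = dx j p t x := fun j x => by
    have a := hu.eqn j t ht x
    have b := hv.eqn j t ht x
    simp only [e0, e1, e2, e3] at b
    linarith
  have hc : ∀ x, q t x - p t x = q t 0 - p t 0 := by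
    refine const_of_dx (G := fun x => q t x - p t x) fun i x => ?_
    have a := HasDerivAt.sub (hv.reg_p.2.2.has ht i x) (hu.reg_p.2.2.has ht i x)
    rw [e4, sub_self] at a
    exact a
  have hi : ∫ x in Icc (0 : V) 1, (q t x - p t x) = 0 := by
    rw [integral_sub ((hv.reg_p.2.1.slice ht).continuousOn.integrableOn_compact isCompact_Icc)
      ((hu.reg_p.2.1.slice ht).continuousOn.integrableOn_compact isCompact_Icc),
      hv.mean t ht, hu.mean t ht, sub_zero]
  simp only [hc, setIntegral_const, smul_eq_mul, Measure.real, volume_cube, one_mul] at hi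
  intro x
  have := hc x
  linarith

end Vale.Agent.Q113
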