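import Vale.Agent.Q113.Build

/-!
# P113: values of stacks and windows
-/

namespace Vale.Agent.Q113

@[simp] theorem val_nil (B : ℕ) : val B [] = 0 := rfl

@[simp] theorem val_cons (B d : ℕ) (L : List ℕ) : val B (d :: L) = ((d : ℚ) + val B L) / B := rfl

theorem val_append {B : ℕ} (hB : 0 < B) (u Y : List ℕ) :
    val B (u ++ Y) = val B u + val B Y / (B : ℚ) ^ u.length := by
  have hB' : (B : ℚ) ≠ 0 := by exact_mod_cast hB.ne'
  induction u with
  | nil => simp
  | cons d u ih =>
    rw [List.cons_append, val_cons, val_cons, ih, List.length_cons, pow_succ]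
    field_simp
    ring

theorem val_nonneg (B : ℕ) (L : List ℕ) : 0 ≤ val B L := by
  induction L with
  | nil => simp
  | cons d L ih => rw [val_cons]; positivity

theorem val_le_half {B : ℕ} {L : List ℕ} (h : ∀ d ∈ L, 2 * d + 2 ≤ B) : val B L ≤ 1 / 2 := by
  induction L with
  | nil => simp
  | cons d L ih =>
    have h1 := ih fun e he => h e (List.mem_cons_of_mem _ he)
    have h2 : 2 * d + 2 ≤ B := h d List.mem_cons_self
    have h3 : (2 : ℚ) * d + 2 ≤ B := by exact_mod_cast h2
    have h4 : (0 : ℚ) ≤ d := Nat.cast_nonneg d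
    rw [val_cons, div_le_iff₀ (by linarith)]
    linarith

theorem val_head_tail {B : ℕ} (X : List ℕ) :
    val B X = ((X.getD 0 0 : ℕ) + val B (X.drop 1)) / B := by
  cases X <;> simp

/-- Removing a word that the padded stack starts with. -/
theorem val_of_match {B : ℕ} (hB : 0 < B) (p X : List ℕ)
    (h : ∀ i < p.length, X.getD i 0 = p.getD i 0) :
    val B X = val B p + val B (X.drop p.length) / (B : ℚ) ^ p.length := by
  have hB' : (B : ℚ) ≠ 0 := by exact_mod_cast hB.ne'
  induction p generalizing X with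
  | nil => simp
  | cons d p ih =>
    have h0 : X.getD 0 0 = d := by simpa using h 0 (by simp)
    have h1 := ih (X.drop 1) fun i hi => by
      have := h (i + 1) (by simpa using hi)
      cases X <;> simpa using this
    rw [val_head_tail X, h0, h1, val_cons, List.drop_drop, List.length_cons, pow_succ,
      add_comm 1 p.length]
    field_simp
    ring

theorem pow_mul_val {B : ℕ} (hB : 0 < B) (X : List ℕ) :
    (B : ℚ) ^ 4 * val B X = pre B X + val B (X.drop 4) := by
  have hB' : (B : ℚ) ≠ 0 := by exact_mod_cast hB.ne'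
  have h := val_of_match hB [X.getD 0 0, X.getD 1 0, X.getD 2 0, X.getD 3 0] X (by
    intro i hi
    simp only [List.length_cons, List.length_nil] at hi
    interval_cases i <;> rfl)
  rw [h]
  simp only [pre, val_cons, val_nil, List.length_cons, List.length_nil]
  push_cast
  field_simp
  ring

theorem getD_lt {B : ℕ} (hB : 0 < B) {X : List ℕ} (h : ∀ d ∈ X, d < B) (i : ℕ) :
    X.getD i 0 < B := by
  rw [List.getD_eq_getElem?_getD]
  cases hi : X[i]? with
  | none => exact hB
  | some d => exact h d (List.mem_of_getElem? hi)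

section digits

variable {B a b c d : ℕ}

theorem dig_mod (hd : d < B) : (c * B + d) % B = d := by
  rw [Nat.mul_add_mod_self_right, Nat.mod_eq_of_lt hd]

theorem dig_div (hd : d < B) : (c * B + d) / B = c := by
  rw [add_comm, Nat.add_mul_div_right _ _ (by omega), Nat.div_eq_of_lt hd, zero_add]

end digits

section pre

variable {B : ℕ} {X : List ℕ}

theorem pre_d3 (hB : 0 < B) (h : ∀ d ∈ X, d < B) : pre B X % B = X.getD 3 0 :=
  dig_mod (getD_lt hB h 3)

theorem pre_div (hB : 0 < B) (h : ∀ d ∈ X, d < B) :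
    pre B X / B = (X.getD 0 0 * B + X.getD 1 0) * B + X.getD 2 0 :=
  dig_div (getD_lt hB h 3)

theorem pre_d2 (hB : 0 < B) (h : ∀ d ∈ X, d < B) : pre B X / B % B = X.getD 2 0 := by
  rw [pre_div hB h, dig_mod (getD_lt hB h 2)]

theorem pre_div2 (hB : 0 < B) (h : ∀ d ∈ X, d < B) :
    pre B X / B ^ 2 = X.getD 0 0 * B + X.getD 1 0 := by
  rw [pow_two, ← Nat.div_div_eq_div_mul, pre_div hB h, dig_div (getD_lt hB h 2)]

theorem pre_d1 (hB : 0 < B) (h : ∀ d ∈ X, d < B) :
    pre B X / B ^ 2 % B = X.getD 1 0 := by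
  rw [pre_div2 hB h, dig_mod (getD_lt hB h 1)]

theorem pre_div3 (hB : 0 < B) (h : ∀ d ∈ X, d < B) : pre B X / B ^ 3 = X.getD 0 0 := by
  rw [pow_succ, ← Nat.div_div_eq_div_mul, pre_div2 hB h, dig_div (getD_lt hB h 1)]

theorem pre_lt (hB : 0 < B) (h : ∀ d ∈ X, d < B) : pre B X < B ^ 4 := by
  have h0 := getD_lt hB h 0
  rw [← pre_div3 hB h, Nat.div_lt_iff_lt_mul (by positivity)] at h0
  calc pre B X < B * B ^ 3 := h0
    _ = B ^ 4 := by ring

end pre

theorem kk_pos (M : Machine) : 0 < kk M := by unfold kk; omega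

theorem bb_pos (M : Machine) : 0 < bb M := by unfold bb; have := kk_pos M; omega

/-- The point lies in its window as soon as all digits are `< 2 kk`. -/
theorem loc_of_dig {M : Machine} {w : List ℕ} {t : ℕ} (h1 : ∀ d ∈ (cfg M w t).1, d < 2 * kk M)
    (h2 : ∀ d ∈ (cfg M w t).2, d < 2 * kk M) : Loc M w t := by
  have hB := bb_pos M
  have e1 : ∀ d, d < 2 * kk M → 2 * d + 2 ≤ bb M := fun d hd => by unfold bb; omega
  have e2 : (nn M : ℚ) * xs M w t - ws M w t = val (bb M) ((cfg M w t).1.drop 4) := by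
    unfold nn xs ws
    push_cast
    rw [pow_mul_val hB]
    ring
  refine ⟨val_nonneg _ _, val_le_half fun d hd => e1 d (h1 d hd), val_nonneg _ _,
    val_le_half fun d hd => e1 d (h2 d hd), pre_lt hB fun d hd => ?_, ?_, ?_⟩
  · have := e1 d (h1 d hd); omega
  · rw [e2]; exact val_nonneg _ _
  · rw [e2]; exact val_le_half fun d hd => e1 d (h1 d (List.mem_of_mem_drop hd))

theorem cfg_succ (M : Machine) (w : List ℕ) (t : ℕ) : cfg M w (t + 1) = mstep M (cfg M w t) :=
  Function.iterate_succ_apply' _ _ _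

/-- The rule read off from the window, in terms of the two top digits. -/
theorem lev_pre {M : Machine} {X : List ℕ} (h : ∀ d ∈ X, d < bb M) :
    lev M (pre (bb M) X) =
      if ck M (X.getD 0 0) = 0 then X.getD 0 0 * bb M else X.getD 0 0 * bb M + X.getD 1 0 := by
  unfold lev
  rw [pre_div3 (bb_pos M) h, pre_div2 (bb_pos M) h]

theorem lev_lt {M : Machine} {X : List ℕ} (h : ∀ d ∈ X, d < bb M) :
    lev M (pre (bb M) X) < nn M := by
  have hB := bb_pos M
  have h0 := getD_lt hB h 0
  have h1 := getD_lt hB h 1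
  have h2 : X.getD 0 0 * bb M + X.getD 1 0 < bb M * bb M := by nlinarith
  have h3 : bb M * bb M ≤ nn M := by
    unfold nn
    calc bb M * bb M = bb M ^ 2 := by ring
      _ ≤ bb M ^ 4 := Nat.pow_le_pow_right hB (by norm_num)
  rw [lev_pre h]
  split_ifs <;> omega

/-- The source word of the rule read off from the window is on top of the padded stack. -/
theorem pw_lev {M : Machine} {X : List ℕ} (h : ∀ d ∈ X, d < bb M) :
    pw M (lev M (pre (bb M) X)) =
      if ck M (X.getD 0 0) = 0 then [X.getD 0 0] else [X.getD 0 0, X.getD 1 0] := by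
  have hB := bb_pos M
  have h1 := getD_lt hB h 1
  rw [lev_pre h]
  unfold pw
  split_ifs with c1 c2 c3
  · rw [Nat.mul_div_cancel _ hB]
  · rw [Nat.mul_div_cancel _ hB] at c2; exact absurd c1 c2
  · rw [dig_div h1] at c3; exact absurd c3 c1
  · rw [dig_div h1, dig_mod h1]

theorem match_pw_lev {M : Machine} {X : List ℕ} (h : ∀ d ∈ X, d < bb M) :
    ∀ i < (pw M (lev M (pre (bb M) X))).length,
      X.getD i 0 = (pw M (lev M (pre (bb M) X))).getD i 0 := by
  rw [pw_lev h]
  intro i hi
  split_ifs at hi ⊢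
  · simp only [List.length_cons, List.length_nil] at hi
    interval_cases i; rfl
  · simp only [List.length_cons, List.length_nil] at hi
    interval_cases i <;> rfl

/-- The step is the affine map of the rule. -/
theorem stp_of_dig {M : Machine} {w : List ℕ} {t : ℕ} (h1 : ∀ d ∈ (cfg M w t).1, d < bb M)
    (hinv : inv M (ws M w (t + 1)) = lev M (ws M w t)) : Stp M w t := by
  have hB := bb_pos M
  have hB' : (bb M : ℚ) ≠ 0 := by exact_mod_cast hB.ne'
  refine ⟨lev_lt h1, ?_, ?_, hinv⟩
  · unfold xs ys ws cA cB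
    rw [cfg_succ]
    simp only [mstep]
    rw [val_append hB]
    ring
  · unfold xs ys ws cC cD
    rw [cfg_succ]
    simp only [mstep]
    rw [val_append hB, val_of_match hB _ _ (match_pw_lev h1)]
    field_simp
    ring

theorem lt_bb {M : Machine} {X : List ℕ} (h : ∀ d ∈ X, d < 2 * kk M) : ∀ d ∈ X, d < bb M :=
  fun d hd => by have := h d hd; unfold bb; omega

theorem stp_of {M : Machine} {w : List ℕ} {t : ℕ} (h1 : ∀ d ∈ (cfg M w t).1, d < 2 * kk M)
    (hi : inv M (ws M w (t + 1)) = lev M (ws M w t)) : Stp M w t :=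
  stp_of_dig (lt_bb h1) hi

/-- The halting test in terms of the top digit. -/
theorem hlt_pre {M : Machine} {X : List ℕ} (h : ∀ d ∈ X, d < bb M) :
    hlt M (pre (bb M) X) = decide (cq M (X.getD 0 0) ∈ M.2.2.2.1) := by
  unfold hlt
  rw [pre_div3 (bb_pos M) h]

/-- The rule that has been applied, in terms of the four top digits. -/
theorem inv_pre {M : Machine} {X : List ℕ} (h : ∀ d ∈ X, d < bb M) :
    inv M (pre (bb M) X) =
      if ck M (X.getD 0 0) = 2 then (X.getD 0 0 - 4) * bb M
      else X.getD 1 0 * bb M + ((X.getD 2 0 - kk M) * kk M + (X.getD 3 0 - kk M)) := by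
  unfold inv
  rw [pre_div3 (bb_pos M) h, pre_d1 (bb_pos M) h, pre_d2 (bb_pos M) h,
    pre_d3 (bb_pos M) h]

end Vale.Agent.Q113
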