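import Vale.Agent.N113.RatPrim

/-!
# `fun_prop` for primitive recursive functions

After importing this file, `fun_prop` proves `Primrec f` for functions built from pairs, lists,
options, sums, `if`, and arithmetic on `ℕ`, `ℤ`, `ℚ`.
-/

namespace Vale.Agent.Q113.PR

open Vale.Agent.N113.RatPrim

attribute [fun_prop] Primrec
attribute [fun_prop] PrimrecPred

variable {α β γ δ σ : Type} [Primcodable α] [Primcodable β] [Primcodable γ] [Primcodable δ]
  [Primcodable σ]

/-! ### Lambda rules -/

@[fun_prop] theorem id' : Primrec fun x : α => x := Primrec.id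

@[fun_prop] theorem const' (x : σ) : Primrec fun _ : α => x := Primrec.const x

@[fun_prop] theorem comp' {f : β → σ} {g : α → β} (hf : Primrec f) (hg : Primrec g) :
    Primrec fun a => f (g a) := hf.comp hg

@[fun_prop] theorem pred_const' (p : Prop) : PrimrecPred fun _ : α => p := by
  classical exact (Primrec.const (decide p)).primrecPred

@[fun_prop] theorem pred_comp' {p : β → Prop} {g : α → β} (hp : PrimrecPred p) (hg : Primrec g) :
    PrimrecPred fun a => p (g a) := hp.comp hg

/-! ### Pairs, sums, options -/

@[fun_prop] theorem fst' {f : α → β × γ} (hf : Primrec f) : Primrec fun a => (f a).1 :=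
  Primrec.fst.comp hf

@[fun_prop] theorem snd' {f : α → β × γ} (hf : Primrec f) : Primrec fun a => (f a).2 :=
  Primrec.snd.comp hf

@[fun_prop] theorem pair' {f : α → β} {g : α → γ} (hf : Primrec f) (hg : Primrec g) :
    Primrec fun a => (f a, g a) := hf.pair hg

@[fun_prop] theorem inl' {f : α → β} (hf : Primrec f) :
    Primrec fun a => (Sum.inl (f a) : β ⊕ γ) := Primrec.sumInl.comp hf

@[fun_prop] theorem inr' {f : α → γ} (hf : Primrec f) :
    Primrec fun a => (Sum.inr (f a) : β ⊕ γ) := Primrec.sumInr.comp hf

@[fun_prop] theorem sum_elim' {f : α → β ⊕ γ} {g : α → β → σ} {h : α → γ → σ} (hf : Primrec f)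
    (hg : Primrec fun p : α × β => g p.1 p.2) (hh : Primrec fun p : α × γ => h p.1 p.2) :
    Primrec fun a => Sum.elim (g a) (h a) (f a) :=
  (Primrec.sumCasesOn hf hg hh).of_eq fun a => by cases f a <;> rfl

@[fun_prop] theorem some' {f : α → β} (hf : Primrec f) : Primrec fun a => some (f a) :=
  Primrec.option_some.comp hf

@[fun_prop] theorem option_getD' {f : α → Option β} {g : α → β} (hf : Primrec f)
    (hg : Primrec g) : Primrec fun a => (f a).getD (g a) := Primrec.option_getD.comp hf hg

@[fun_prop] theorem option_map' {f : α → Option β} {g : α → β → σ} (hf : Primrec f)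
    (hg : Primrec fun p : α × β => g p.1 p.2) : Primrec fun a => (f a).map (g a) :=
  Primrec.option_map hf hg

@[fun_prop] theorem option_bind' {f : α → Option β} {g : α → β → Option σ} (hf : Primrec f)
    (hg : Primrec fun p : α × β => g p.1 p.2) : Primrec fun a => (f a).bind (g a) :=
  Primrec.option_bind hf hg

@[fun_prop] theorem option_elim' {f : α → Option β} {d : α → σ} {g : α → β → σ} (hf : Primrec f)
    (hd : Primrec d) (hg : Primrec fun p : α × β => g p.1 p.2) :
    Primrec fun a => (f a).elim (d a) (g a) :=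
  (Primrec.option_casesOn hf hd hg).of_eq fun a => by cases f a <;> rfl

@[fun_prop] theorem option_toList' {f : α → Option β} (hf : Primrec f) :
    Primrec fun a => (f a).toList := Primrec.optionToList.comp hf

@[fun_prop] theorem option_isSome' {f : α → Option β} (hf : Primrec f) :
    Primrec fun a => (f a).isSome := Primrec.option_isSome.comp hf

/-! ### Conditionals and predicates -/

@[fun_prop] theorem cond' {c : α → Bool} {f g : α → σ} (hc : Primrec c) (hf : Primrec f)
    (hg : Primrec g) : Primrec fun a => cond (c a) (f a) (g a) := Primrec.cond hc hf hg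

@[fun_prop] theorem ite' {c : α → Prop} {inst : ∀ a, Decidable (c a)} {f g : α → σ}
    (hc : PrimrecPred c) (hf : Primrec f) (hg : Primrec g) :
    Primrec fun a => @ite σ (c a) (inst a) (f a) (g a) := Primrec.ite hc hf hg

@[fun_prop] theorem decide' {c : α → Prop} {inst : ∀ a, Decidable (c a)} (hc : PrimrecPred c) :
    Primrec fun a => @decide (c a) (inst a) := hc.decide

@[fun_prop] theorem bnot' {f : α → Bool} (hf : Primrec f) : Primrec fun a => !(f a) :=
  Primrec.not.comp hf

@[fun_prop] theorem band' {f g : α → Bool} (hf : Primrec f) (hg : Primrec g) :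
    Primrec fun a => f a && g a := Primrec.and.comp hf hg

@[fun_prop] theorem bor' {f g : α → Bool} (hf : Primrec f) (hg : Primrec g) :
    Primrec fun a => f a || g a := Primrec.or.comp hf hg

@[fun_prop] theorem beq' [BEq β] [LawfulBEq β] {f g : α → β} (hf : Primrec f) (hg : Primrec g) :
    Primrec fun a => f a == g a := by
  classical
  exact (Primrec.eq.comp hf hg).decide.of_eq fun a => by simp [Bool.beq_eq_decide_eq]

@[fun_prop] theorem eq' {f g : α → β} (hf : Primrec f) (hg : Primrec g) :
    PrimrecPred fun a => f a = g a := Primrec.eq.comp hf hg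

@[fun_prop] theorem ne' {f g : α → β} (hf : Primrec f) (hg : Primrec g) :
    PrimrecPred fun a => f a ≠ g a := (Primrec.eq.comp hf hg).not

@[fun_prop] theorem not' {p : α → Prop} (hp : PrimrecPred p) : PrimrecPred fun a => ¬ p a := hp.not

@[fun_prop] theorem and' {p q : α → Prop} (hp : PrimrecPred p) (hq : PrimrecPred q) :
    PrimrecPred fun a => p a ∧ q a := hp.and hq

@[fun_prop] theorem or' {p q : α → Prop} (hp : PrimrecPred p) (hq : PrimrecPred q) :
    PrimrecPred fun a => p a ∨ q a := hp.or hq

/-- `≤` is a primitive recursive relation. -/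
class HasLE (β : Type) [Primcodable β] [LE β] : Prop where
  out : PrimrecRel fun a b : β => a ≤ b

/-- `<` is a primitive recursive relation. -/
class HasLT (β : Type) [Primcodable β] [LT β] : Prop where
  out : PrimrecRel fun a b : β => a < b

instance : HasLE ℕ := ⟨Primrec.nat_le⟩
instance : HasLE ℤ := ⟨int_le⟩
instance : HasLE ℚ := ⟨rat_le⟩
instance : HasLT ℕ := ⟨Primrec.nat_lt⟩
instance : HasLT ℤ := ⟨int_lt⟩
instance : HasLT ℚ := ⟨rat_lt⟩

@[fun_prop] theorem le' [LE β] [HasLE β] {f g : α → β} (hf : Primrec f) (hg : Primrec g) :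
    PrimrecPred fun a => f a ≤ g a := HasLE.out.comp hf hg

@[fun_prop] theorem lt' [LT β] [HasLT β] {f g : α → β} (hf : Primrec f) (hg : Primrec g) :
    PrimrecPred fun a => f a < g a := HasLT.out.comp hf hg

@[fun_prop] theorem ge' [LE β] [HasLE β] {f g : α → β} (hf : Primrec f) (hg : Primrec g) :
    PrimrecPred fun a => f a ≥ g a := HasLE.out.comp hg hf

@[fun_prop] theorem gt' [LT β] [HasLT β] {f g : α → β} (hf : Primrec f) (hg : Primrec g) :
    PrimrecPred fun a => f a > g a := HasLT.out.comp hg hf

@[fun_prop] theorem mem' {f : α → β} {g : α → List β} (hf : Primrec f) (hg : Primrec g) :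
    PrimrecPred fun a => f a ∈ g a := by
  have h : PrimrecRel fun (L : List β) (b : β) => ∃ x ∈ L, x = b :=
    PrimrecRel.exists_mem_list Primrec.eq
  exact (h.comp hg hf).of_eq fun a => by simp

/-! ### Arithmetic -/

@[fun_prop] theorem succ' {f : α → ℕ} (hf : Primrec f) : Primrec fun a => (f a).succ :=
  Primrec.succ.comp hf

theorem rat_zpow : Primrec₂ fun (a : ℚ) (n : ℤ) => a ^ n := by
  have h : Primrec fun p : ℚ × ℤ =>
      if 0 ≤ p.2 then p.1 ^ p.2.toNat else (p.1 ^ (-p.2).toNat)⁻¹ :=
    Primrec.ite (int_le.comp (Primrec.const 0) Primrec.snd)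
      (rat_pow.comp Primrec.fst (int_toNat.comp Primrec.snd))
      (rat_inv.comp (rat_pow.comp Primrec.fst (int_negToNat.comp Primrec.snd)))
  refine h.of_eq fun p => ?_
  split_ifs with h0
  · rw [← zpow_natCast, Int.toNat_of_nonneg h0]
  · rw [← zpow_natCast, Int.toNat_of_nonneg (by omega), zpow_neg, inv_inv]

/-- `+` is primitive recursive. -/
class HasAdd (β γ σ : Type) [Primcodable β] [Primcodable γ] [Primcodable σ] [HAdd β γ σ] :
    Prop where
  out : Primrec₂ fun (a : β) (b : γ) => (a + b : σ)

instance : HasAdd ℕ ℕ ℕ := ⟨Primrec.nat_add⟩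
instance : HasAdd ℤ ℤ ℤ := ⟨int_add⟩
instance : HasAdd ℚ ℚ ℚ := ⟨rat_add⟩

@[fun_prop] theorem add' [HAdd β γ σ] [HasAdd β γ σ] {f : α → β} {g : α → γ}
    (hf : Primrec f) (hg : Primrec g) : Primrec fun a => (f a + g a : σ) :=
  HasAdd.out.comp hf hg

/-- `-` is primitive recursive. -/
class HasSub (β γ σ : Type) [Primcodable β] [Primcodable γ] [Primcodable σ] [HSub β γ σ] :
    Prop where
  out : Primrec₂ fun (a : β) (b : γ) => (a - b : σ)

instance : HasSub ℕ ℕ ℕ := ⟨Primrec.nat_sub⟩
instance : HasSub ℤ ℤ ℤ := ⟨int_sub⟩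
instance : HasSub ℚ ℚ ℚ := ⟨rat_sub⟩

@[fun_prop] theorem sub' [HSub β γ σ] [HasSub β γ σ] {f : α → β} {g : α → γ}
    (hf : Primrec f) (hg : Primrec g) : Primrec fun a => (f a - g a : σ) :=
  HasSub.out.comp hf hg

/-- `*` is primitive recursive. -/
class HasMul (β γ σ : Type) [Primcodable β] [Primcodable γ] [Primcodable σ] [HMul β γ σ] :
    Prop where
  out : Primrec₂ fun (a : β) (b : γ) => (a * b : σ)

instance : HasMul ℕ ℕ ℕ := ⟨Primrec.nat_mul⟩
instance : HasMul ℤ ℤ ℤ := ⟨int_mul⟩
instance : HasMul ℚ ℚ ℚ := ⟨rat_mul⟩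

@[fun_prop] theorem mul' [HMul β γ σ] [HasMul β γ σ] {f : α → β} {g : α → γ}
    (hf : Primrec f) (hg : Primrec g) : Primrec fun a => (f a * g a : σ) :=
  HasMul.out.comp hf hg

/-- `/` is primitive recursive. -/
class HasDiv (β γ σ : Type) [Primcodable β] [Primcodable γ] [Primcodable σ] [HDiv β γ σ] :
    Prop where
  out : Primrec₂ fun (a : β) (b : γ) => (a / b : σ)

instance : HasDiv ℕ ℕ ℕ := ⟨Primrec.nat_div⟩
instance : HasDiv ℚ ℚ ℚ := ⟨rat_div⟩

@[fun_prop] theorem div' [HDiv β γ σ] [HasDiv β γ σ] {f : α → β} {g : α → γ}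
    (hf : Primrec f) (hg : Primrec g) : Primrec fun a => (f a / g a : σ) :=
  HasDiv.out.comp hf hg

/-- `%` is primitive recursive. -/
class HasMod (β γ σ : Type) [Primcodable β] [Primcodable γ] [Primcodable σ] [HMod β γ σ] :
    Prop where
  out : Primrec₂ fun (a : β) (b : γ) => (a % b : σ)

instance : HasMod ℕ ℕ ℕ := ⟨Primrec.nat_mod⟩

@[fun_prop] theorem mod' [HMod β γ σ] [HasMod β γ σ] {f : α → β} {g : α → γ}
    (hf : Primrec f) (hg : Primrec g) : Primrec fun a => (f a % g a : σ) :=
  HasMod.out.comp hf hg

/-- `^` is primitive recursive. -/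
class HasPow (β γ σ : Type) [Primcodable β] [Primcodable γ] [Primcodable σ] [HPow β γ σ] :
    Prop where
  out : Primrec₂ fun (a : β) (b : γ) => (a ^ b : σ)

instance : HasPow ℕ ℕ ℕ := ⟨nat_pow⟩
instance : HasPow ℚ ℕ ℚ := ⟨rat_pow⟩
instance : HasPow ℚ ℤ ℚ := ⟨rat_zpow⟩

@[fun_prop] theorem pow' [HPow β γ σ] [HasPow β γ σ] {f : α → β} {g : α → γ}
    (hf : Primrec f) (hg : Primrec g) : Primrec fun a => (f a ^ g a : σ) :=
  HasPow.out.comp hf hg

/-- Negation is primitive recursive. -/
class HasNeg (β : Type) [Primcodable β] [Neg β] : Prop where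
  out : Primrec fun a : β => -a

instance : HasNeg ℤ := ⟨int_neg⟩
instance : HasNeg ℚ := ⟨rat_neg⟩

@[fun_prop] theorem neg' [Neg β] [HasNeg β] {f : α → β} (hf : Primrec f) :
    Primrec fun a => -f a := HasNeg.out.comp hf

/-- The cast from `ℕ` is primitive recursive. -/
class HasNatCast (β : Type) [Primcodable β] [NatCast β] : Prop where
  out : Primrec fun a : ℕ => (a : β)

instance : HasNatCast ℕ := ⟨Primrec.id⟩
instance : HasNatCast ℤ := ⟨int_natCast⟩
instance : HasNatCast ℚ := ⟨rat_natCast⟩

@[fun_prop] theorem natCast' [NatCast β] [HasNatCast β] {f : α → ℕ} (hf : Primrec f) :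
    Primrec fun a => (f a : β) := HasNatCast.out.comp hf

@[fun_prop] theorem rat_intCast' {f : α → ℤ} (hf : Primrec f) : Primrec fun a => (f a : ℚ) :=
  rat_intCast.comp hf

@[fun_prop] theorem rat_inv' {f : α → ℚ} (hf : Primrec f) : Primrec fun a => (f a)⁻¹ :=
  rat_inv.comp hf

@[fun_prop] theorem nat_pair' {f g : α → ℕ} (hf : Primrec f) (hg : Primrec g) :
    Primrec fun a => Nat.pair (f a) (g a) := Primrec₂.natPair.comp hf hg

@[fun_prop] theorem nat_unpair' {f : α → ℕ} (hf : Primrec f) :
    Primrec fun a => Nat.unpair (f a) := Primrec.unpair.comp hf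

@[fun_prop] theorem int_toNat' {f : α → ℤ} (hf : Primrec f) : Primrec fun a => (f a).toNat :=
  int_toNat.comp hf

@[fun_prop] theorem int_natAbs' {f : α → ℤ} (hf : Primrec f) : Primrec fun a => (f a).natAbs :=
  int_natAbs.comp hf

/-- `max` is primitive recursive. -/
class HasMax (β : Type) [Primcodable β] [Max β] : Prop where
  out : Primrec₂ fun a b : β => max a b

/-- `min` is primitive recursive. -/
class HasMin (β : Type) [Primcodable β] [Min β] : Prop where
  out : Primrec₂ fun a b : β => min a b

theorem max_of_le [LinearOrder β] [HasLE β] : Primrec₂ fun a b : β => max a b := by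
  have h : Primrec fun p : β × β => if p.1 ≤ p.2 then p.2 else p.1 := by fun_prop
  exact h.of_eq fun p => (max_def _ _).symm

theorem min_of_le [LinearOrder β] [HasLE β] : Primrec₂ fun a b : β => min a b := by
  have h : Primrec fun p : β × β => if p.1 ≤ p.2 then p.1 else p.2 := by fun_prop
  exact h.of_eq fun p => (min_def _ _).symm

instance : HasMax ℕ := ⟨Primrec.nat_max⟩
instance : HasMax ℤ := ⟨max_of_le⟩
instance : HasMax ℚ := ⟨max_of_le⟩
instance : HasMin ℕ := ⟨Primrec.nat_min⟩
instance : HasMin ℤ := ⟨min_of_le⟩
instance : HasMin ℚ := ⟨min_of_le⟩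

@[fun_prop] theorem max' [Max β] [HasMax β] {f g : α → β} (hf : Primrec f) (hg : Primrec g) :
    Primrec fun a => max (f a) (g a) := HasMax.out.comp hf hg

@[fun_prop] theorem min' [Min β] [HasMin β] {f g : α → β} (hf : Primrec f) (hg : Primrec g) :
    Primrec fun a => min (f a) (g a) := HasMin.out.comp hf hg

@[fun_prop] theorem rat_abs' {f : α → ℚ} (hf : Primrec f) : Primrec fun a => |f a| := by
  have h : Primrec fun a => max (f a) (-f a) := by fun_prop
  exact h.of_eq fun a => (abs_eq_max_neg).symm

/-! ### Lists -/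

@[fun_prop] theorem cons' {f : α → β} {g : α → List β} (hf : Primrec f) (hg : Primrec g) :
    Primrec fun a => f a :: g a := Primrec.list_cons.comp hf hg

@[fun_prop] theorem append' {f g : α → List β} (hf : Primrec f) (hg : Primrec g) :
    Primrec fun a => f a ++ g a := Primrec.list_append.comp hf hg

@[fun_prop] theorem length' {f : α → List β} (hf : Primrec f) : Primrec fun a => (f a).length :=
  Primrec.list_length.comp hf

@[fun_prop] theorem reverse' {f : α → List β} (hf : Primrec f) : Primrec fun a => (f a).reverse :=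
  Primrec.list_reverse.comp hf

@[fun_prop] theorem tail' {f : α → List β} (hf : Primrec f) : Primrec fun a => (f a).tail :=
  Primrec.list_tail.comp hf

@[fun_prop] theorem head?' {f : α → List β} (hf : Primrec f) : Primrec fun a => (f a).head? :=
  Primrec.list_head?.comp hf

@[fun_prop] theorem headD' {f : α → List β} {d : α → β} (hf : Primrec f) (hd : Primrec d) :
    Primrec fun a => (f a).headD (d a) := by
  have h : Primrec fun a => (f a).head?.getD (d a) := by fun_prop
  exact h.of_eq fun a => by cases f a <;> rfl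

@[fun_prop] theorem getElem?' {f : α → List β} {g : α → ℕ} (hf : Primrec f) (hg : Primrec g) :
    Primrec fun a => (f a)[g a]? := Primrec.list_getElem?.comp hf hg

@[fun_prop] theorem getD' {f : α → List β} {g : α → ℕ} {d : α → β} (hf : Primrec f)
    (hg : Primrec g) (hd : Primrec d) : Primrec fun a => (f a).getD (g a) (d a) := by
  have h : Primrec fun a => ((f a)[g a]?).getD (d a) := by fun_prop
  exact h.of_eq fun a => (List.getD_eq_getElem?_getD ..).symm

@[fun_prop] theorem range' {f : α → ℕ} (hf : Primrec f) : Primrec fun a => List.range (f a) :=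
  Primrec.list_range.comp hf

@[fun_prop] theorem flatten' {f : α → List (List β)} (hf : Primrec f) :
    Primrec fun a => (f a).flatten := Primrec.list_flatten.comp hf

@[fun_prop] theorem take' {f : α → ℕ} {g : α → List β} (hf : Primrec f) (hg : Primrec g) :
    Primrec fun a => (g a).take (f a) := Primrec.list_take.comp hf hg

@[fun_prop] theorem drop' {f : α → ℕ} {g : α → List β} (hf : Primrec f) (hg : Primrec g) :
    Primrec fun a => (g a).drop (f a) := Primrec.list_drop.comp hf hg

@[fun_prop] theorem set' {f : α → List β} {g : α → ℕ} {h : α → β} (hf : Primrec f)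
    (hg : Primrec g) (hh : Primrec h) : Primrec fun a => (f a).set (g a) (h a) :=
  Primrec.list_set.comp hf (hg.pair hh)

@[fun_prop] theorem map' {f : α → List β} {g : α → β → σ} (hf : Primrec f)
    (hg : Primrec fun p : α × β => g p.1 p.2) : Primrec fun a => (f a).map (g a) :=
  Primrec.list_map hf hg

@[fun_prop] theorem flatMap' {f : α → List β} {g : α → β → List σ} (hf : Primrec f)
    (hg : Primrec fun p : α × β => g p.1 p.2) : Primrec fun a => (f a).flatMap (g a) :=
  Primrec.list_flatMap hf hg

@[fun_prop] theorem filterMap' {f : α → List β} {g : α → β → Option σ} (hf : Primrec f)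
    (hg : Primrec fun p : α × β => g p.1 p.2) : Primrec fun a => (f a).filterMap (g a) :=
  Primrec.listFilterMap hf hg

@[fun_prop] theorem filter' {f : α → List β} {g : α → β → Bool} (hf : Primrec f)
    (hg : Primrec fun p : α × β => g p.1 p.2) : Primrec fun a => (f a).filter (g a) := by
  have h : Primrec fun a => (f a).filterMap fun b => cond (g a b) (some b) none := by fun_prop
  refine h.of_eq fun a => ?_
  induction f a with
  | nil => rfl
  | cons b l ih => cases hb : g a b <;> simp [hb, ← ih]

@[fun_prop] theorem foldr' {f : α → List β} {g : α → σ} {h : α → β → σ → σ} (hf : Primrec f)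
    (hg : Primrec g) (hh : Primrec fun p : α × β × σ => h p.1 p.2.1 p.2.2) :
    Primrec fun a => (f a).foldr (h a) (g a) :=
  Primrec.list_foldr (h := fun a p => h a p.1 p.2) hf hg hh

@[fun_prop] theorem foldl' {f : α → List β} {g : α → σ} {h : α → σ → β → σ} (hf : Primrec f)
    (hg : Primrec g) (hh : Primrec fun p : α × σ × β => h p.1 p.2.1 p.2.2) :
    Primrec fun a => (f a).foldl (h a) (g a) :=
  Primrec.list_foldl (h := fun a p => h a p.1 p.2) hf hg hh

@[fun_prop] theorem iterate' {f : α → ℕ} {g : α → β} {h : α → β → β} (hf : Primrec f)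
    (hg : Primrec g) (hh : Primrec fun p : α × β => h p.1 p.2) :
    Primrec fun a => (h a)^[f a] (g a) := Primrec.nat_iterate hf hg hh

@[fun_prop] theorem replicate' {f : α → ℕ} {g : α → β} (hf : Primrec f) (hg : Primrec g) :
    Primrec fun a => List.replicate (f a) (g a) := by
  have h : Primrec fun a => (List.range (f a)).map fun _ => g a := by fun_prop
  exact h.of_eq fun a => by simp

@[fun_prop] theorem all' {f : α → List β} {g : α → β → Bool} (hf : Primrec f)
    (hg : Primrec fun p : α × β => g p.1 p.2) : Primrec fun a => (f a).all (g a) := by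
  have h : Primrec fun a => (f a).foldr (fun b r => g a b && r) true := by fun_prop
  refine h.of_eq fun a => ?_
  induction f a with
  | nil => rfl
  | cons b l ih => simp [ih]

@[fun_prop] theorem any' {f : α → List β} {g : α → β → Bool} (hf : Primrec f)
    (hg : Primrec fun p : α × β => g p.1 p.2) : Primrec fun a => (f a).any (g a) := by
  have h : Primrec fun a => (f a).foldr (fun b r => g a b || r) false := by fun_prop
  refine h.of_eq fun a => ?_
  induction f a with
  | nil => rfl
  | cons b l ih => simp [ih]

@[fun_prop] theorem contains' [BEq β] [LawfulBEq β] {f : α → List β} {g : α → β}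
    (hf : Primrec f) (hg : Primrec g) : Primrec fun a => (f a).contains (g a) := by
  classical
  have h : Primrec fun a => decide (g a ∈ f a) := by fun_prop
  exact h.of_eq fun a => by simp

@[fun_prop] theorem zipIdx' {f : α → List β} {g : α → ℕ} (hf : Primrec f) (hg : Primrec g) :
    Primrec fun a => (f a).zipIdx (g a) := by
  have h : Primrec fun a => ((f a).foldr (fun b (r : ℕ × List (β × ℕ)) =>
      (r.1 - 1, (b, r.1 - 1) :: r.2)) (g a + (f a).length, [])).2 := by fun_prop
  refine h.of_eq fun a => ?_
  have key : ∀ (l : List β) (n : ℕ), l.foldr (fun b (r : ℕ × List (β × ℕ)) =>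
      (r.1 - 1, (b, r.1 - 1) :: r.2)) (n + l.length, []) = (n, l.zipIdx n) := by
    intro l
    induction l with
    | nil => intro n; rfl
    | cons b l ih =>
      intro n
      rw [List.foldr_cons, List.length_cons, show n + (l.length + 1) = n + 1 + l.length by omega, ih]
      simp
  rw [key]

@[fun_prop] theorem sum' [Add β] [Zero β] [HasAdd β β β] {f : α → List β} (hf : Primrec f) :
    Primrec fun a => (f a).sum := by
  have h : Primrec fun a => (f a).foldr (fun b r => b + r) 0 := by fun_prop
  exact h.of_eq fun a => by induction f a <;> simp_all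

@[fun_prop] theorem prod' [Mul β] [One β] [HasMul β β β] {f : α → List β} (hf : Primrec f) :
    Primrec fun a => (f a).prod := by
  have h : Primrec fun a => (f a).foldr (fun b r => b * r) 1 := by fun_prop
  exact h.of_eq fun a => by induction f a <;> simp_all

@[fun_prop] theorem zipWith' {f : α → List β} {g : α → List γ} {h : α → β → γ → σ}
    (hf : Primrec f) (hg : Primrec g) (hh : Primrec fun p : α × β × γ => h p.1 p.2.1 p.2.2) :
    Primrec fun a => List.zipWith (h a) (f a) (g a) := by
  have h1 : Primrec fun a => ((f a).zipIdx 0).filterMap fun p =>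
      ((g a)[p.2]?).map fun c => h a p.1 c := by fun_prop
  refine h1.of_eq fun a => ?_
  have key : ∀ (l : List β) (m l' : List γ), (l.zipIdx m.length).filterMap (fun p =>
      ((m ++ l')[p.2]?).map fun c => h a p.1 c) = List.zipWith (h a) l l' := by
    intro l
    induction l with
    | nil => intro m l'; rfl
    | cons b l ih =>
      intro m l'
      cases l' with
      | nil =>
        rw [List.zipWith_nil_right, List.filterMap_eq_nil_iff]
        intro p hp
        have := List.le_snd_of_mem_zipIdx hp
        simp [List.getElem?_eq_none this]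
      | cons c l' =>
        have := ih (m ++ [c]) l'
        simp only [List.length_append, List.length_singleton, List.append_assoc,
          List.singleton_append] at this
        simp [List.zipIdx_cons, this]
  exact key (f a) [] (g a)

@[fun_prop] theorem zip' {f : α → List β} {g : α → List γ} (hf : Primrec f) (hg : Primrec g) :
    Primrec fun a => (f a).zip (g a) := by
  have h : Primrec fun a => List.zipWith (fun b c => (b, c)) (f a) (g a) := by fun_prop
  exact h

@[fun_prop] theorem idxOf' [DecidableEq β] {f : α → β} {g : α → List β} (hf : Primrec f)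
    (hg : Primrec g) : Primrec fun a => (g a).idxOf (f a) := Primrec.list_idxOf.comp hf hg

@[fun_prop] theorem isEmpty' {f : α → List β} (hf : Primrec f) :
    Primrec fun a => (f a).isEmpty := by
  have h : Primrec fun a => decide ((f a).length = 0) := by fun_prop
  exact h.of_eq fun a => by cases f a <;> simp

/-! ### Functions on `Fin n` -/

theorem fin_app' {n : ℕ} {f : α → Fin n → σ} {g : α → Fin n} (hf : Primrec f)
    (hg : Primrec g) : Primrec fun a => f a (g a) := Primrec.fin_app.comp hf hg

@[fun_prop] theorem fin_apply' {n : ℕ} (i : Fin n) : Primrec fun f : Fin n → σ => f i :=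
  fin_app' Primrec.id (Primrec.const i)

@[fun_prop] theorem fin_pi' {n : ℕ} {f : α → Fin n → σ} (hf : ∀ i, Primrec fun a => f a i) :
    Primrec fun a i => f a i :=
  Primrec.fin_curry.2 (Primrec.fin_curry₁.2 hf).swap

@[fun_prop] theorem vec3' {f g h : α → σ} (hf : Primrec f) (hg : Primrec g) (hh : Primrec h) :
    Primrec fun a => ![f a, g a, h a] :=
  fin_pi' fun i => by fin_cases i <;> simpa

@[fun_prop] theorem vec3_app' {f g h : α → σ} {k : α → Fin 3} (hf : Primrec f) (hg : Primrec g)
    (hh : Primrec h) (hk : Primrec k) : Primrec fun a => ![f a, g a, h a] (k a) :=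
  fin_app' (vec3' hf hg hh) hk

@[fun_prop] theorem update' {n : ℕ} {f : α → Fin n → σ} {k : α → Fin n} {g : α → σ}
    (hf : Primrec f) (hk : Primrec k) (hg : Primrec g) :
    Primrec fun a => Function.update (f a) (k a) (g a) := by
  refine fin_pi' (f := fun a => Function.update (f a) (k a) (g a)) fun i => ?_
  have h1 : Primrec fun a => f a i := fin_app' hf (Primrec.const i)
  have h : Primrec fun a => if i = k a then g a else f a i := by fun_prop
  exact h.of_eq fun a => (Function.update_apply _ _ _ _).symm

@[fun_prop] theorem fin_val' {n : ℕ} {k : α → Fin n} (hk : Primrec k) :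
    Primrec fun a => (k a : ℕ) := Primrec.fin_val.comp hk

end Vale.Agent.Q113.PR
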