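import Vale.Agent.Q113.Num

/-!
# P113: the rewriting system simulates the machine
-/

namespace Vale.Agent.Q113

variable {M : Machine}

theorem kk_two (M : Machine) : 2 ≤ kk M := by unfold kk; omega

theorem cq_ctl {kind q d : ℕ} (hk : kind < 3) (hd : d < 2) : cq M (ctl M kind q d) = q := by
  unfold cq ctl; omega

theorem ck_ctl {kind q d : ℕ} (hk : kind < 3) (hd : d < 2) : ck M (ctl M kind q d) = kind := by
  unfold ck ctl; omega

theorem cd_ctl {kind q d : ℕ} (hd : d < 2) : cd M (ctl M kind q d) = d := by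
  unfold cd ctl; omega

theorem ctl_lt {kind q d : ℕ} (hk : kind < 3) (hq : q < M.1) (hd : d < 2) :
    ctl M kind q d < 2 * kk M := by
  unfold ctl kk; omega

theorem le_ctl (kind q d : ℕ) : kk M ≤ ctl M kind q d := by unfold ctl; omega

theorem entry_ok (hM : M.WF) {q s : ℕ} (hq : q < M.1) (hs : s < M.2.1) :
    (M.entry q s).1 < M.1 ∧ (M.entry q s).2.1 < M.2.1 ∧
      ((M.entry q s).2.2 = -1 ∨ (M.entry q s).2.2 = 0 ∨ (M.entry q s).2.2 = 1) := by
  obtain ⟨n, m, s0, H, δ⟩ := M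
  obtain ⟨-, -, -, hl, hrow⟩ := hM
  simp only at hq hs
  have h1 : q < δ.length := by omega
  have e1 : δ.getD q [] = δ[q] := List.getD_eq_getElem _ _ h1
  obtain ⟨hl2, he⟩ := hrow δ[q] (List.getElem_mem h1)
  have h2 : s < (δ[q]).length := by omega
  have e2 : (δ[q]).getD s (0, 0, 0) = (δ[q])[s] := List.getD_eq_getElem _ _ h2
  simp only [Machine.entry, e1, e2]
  exact he _ (List.getElem_mem h2)

/-- All digits are `< 2 kk`, and the tape digits are symbols of the machine. -/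
def Dig (M : Machine) (A : List ℕ) : Prop := ∀ x ∈ A, x < 2 * kk M ∧ (x < kk M → x < M.2.1)

/-- The tape symbols of a stack. -/
def fl (M : Machine) (A : List ℕ) : List ℕ := A.filter fun x => decide (x < kk M)

theorem Dig.tail {A : List ℕ} (h : Dig M A) : Dig M A.tail :=
  fun x hx => h x (List.mem_of_mem_tail hx)

theorem Dig.cons {A : List ℕ} {s : ℕ} (hs : s < M.2.1) (h : Dig M A) : Dig M (s :: A) := by
  intro x hx
  rcases List.mem_cons.1 hx with rfl | hx
  · exact ⟨by unfold kk; omega, fun _ => hs⟩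
  · exact h x hx

theorem Dig.head {A : List ℕ} (h : Dig M A) : A.getD 0 0 < 2 * kk M := by
  cases A with
  | nil => have := kk_pos M; simp; omega
  | cons a A => exact (h a List.mem_cons_self).1

theorem Dig.head_lt (hM : M.WF) {A : List ℕ} (h : Dig M A) (hs : A.getD 0 0 < kk M) :
    A.getD 0 0 < M.2.1 := by
  cases A with
  | nil => exact hM.1
  | cons a A => exact (h a List.mem_cons_self).2 hs

theorem rcd_bound {c s : ℕ} (hc : kk M ≤ c) (hc' : c < 2 * kk M) (hs : s < 2 * kk M) :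
    ∀ x ∈ rcd M c s, kk M ≤ x ∧ x < 2 * kk M := by
  have hk := kk_two M
  have h1 : s / kk M < 2 := (Nat.div_lt_iff_lt_mul (by omega)).2 hs
  have h2 : s % kk M < kk M := Nat.mod_lt _ (by omega)
  intro x hx
  simp only [rcd, List.mem_cons, List.not_mem_nil, or_false] at hx
  rcases hx with rfl | rfl | rfl
  · omega
  · exact ⟨Nat.le_add_right _ _, by generalize s / kk M = e at *; omega⟩
  · omega

theorem Dig.rcd {c s : ℕ} (hc : kk M ≤ c) (hc' : c < 2 * kk M) (hs : s < 2 * kk M) {O : List ℕ}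
    (h : Dig M O) : Dig M (rcd M c s ++ O) := by
  intro x hx
  rcases List.mem_append.1 hx with hx | hx
  · have := rcd_bound hc hc' hs x hx
    exact ⟨this.2, fun h => by omega⟩
  · exact h x hx

theorem fl_rcd {c s : ℕ} (hc : kk M ≤ c) (O : List ℕ) : fl M (rcd M c s ++ O) = fl M O := by
  simp [fl, rcd, show ¬c < kk M by omega]

theorem fl_cons {s : ℕ} (hs : s < M.2.1) (A : List ℕ) : fl M (s :: A) = s :: fl M A := by
  have : s < kk M := by unfold kk; omega
  simp [fl, this]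

theorem fl_tail_garbage {A : List ℕ} (h : kk M ≤ A.getD 0 0) : fl M A.tail = fl M A := by
  cases A with
  | nil => rfl
  | cons a A =>
    have : ¬a < kk M := by simpa using h
    simp [fl, this]

theorem fl_head {A : List ℕ} (h : A.getD 0 0 < kk M) : (fl M A).getD 0 0 = A.getD 0 0 := by
  cases A with
  | nil => rfl
  | cons a A =>
    have : a < kk M := by simpa using h
    simp [fl, this]

theorem fl_tail {A : List ℕ} (h : A.getD 0 0 < kk M) (i : ℕ) :
    (fl M A.tail).getD i 0 = (fl M A).getD (i + 1) 0 := by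
  cases A with
  | nil => rfl
  | cons a A =>
    have : a < kk M := by simpa using h
    simp [fl, this]

/-- The stacks `A` (side `d`, it holds the head cell) and `O` represent the tape. -/
structure Rep (M : Machine) (c : ℕ × ℤ × (ℤ → ℕ)) (d : ℕ) (A O : List ℕ) : Prop where
  hq : c.1 < M.1
  hd : d < 2
  dA : Dig M A
  dO : Dig M O
  tA : ∀ i : ℕ, c.2.2 (c.2.1 + (2 * (d : ℤ) - 1) * i) = (fl M A).getD i 0
  tO : ∀ i : ℕ, c.2.2 (c.2.1 - (2 * (d : ℤ) - 1) * (1 + i)) = (fl M O).getD i 0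

/-- The configuration `g` of the rewriting system represents the configuration `c`. -/
def R (M : Machine) (c : ℕ × ℤ × (ℤ → ℕ)) (g : List ℕ × List ℕ) : Prop :=
  ∃ d A O, Rep M c d A O ∧ (g = (ctl M 0 c.1 d :: O, A) ∨ g = (ctl M 1 c.1 d :: A, O) ∨
    g = (ctl M 2 c.1 d :: A, O))

theorem dig_lt {c : ℕ} {A : List ℕ} (hc : c < 2 * kk M) (hA : Dig M A) :
    ∀ x ∈ c :: A, x < bb M := by
  intro x hx
  unfold bb
  rcases List.mem_cons.1 hx with rfl | hx
  · omega
  · have := (hA x hx).1; omega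

theorem lev_swap {q d : ℕ} {O : List ℕ} (hq : q < M.1) (hd : d < 2) (hO : Dig M O) :
    lev M (pre (bb M) (ctl M 0 q d :: O)) = ctl M 0 q d * bb M := by
  have h := dig_lt (ctl_lt (kind := 0) (by omega) hq hd) hO
  unfold lev
  rw [pre_div3 (bb_pos M) h]
  simp [ck_ctl (show 0 < 3 by omega) hd]

theorem lev_work {kind q d : ℕ} {A : List ℕ} (hk : kind = 1 ∨ kind = 2) (hq : q < M.1)
    (hd : d < 2) (hA : Dig M A) :
    lev M (pre (bb M) (ctl M kind q d :: A)) = ctl M kind q d * bb M + A.getD 0 0 := by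
  have hk3 : kind < 3 := by omega
  have h := dig_lt (ctl_lt hk3 hq hd) hA
  unfold lev
  rw [pre_div3 (bb_pos M) h, pre_div2 (bb_pos M) h]
  simp [ck_ctl hk3 hd, show kind ≠ 0 by omega]

theorem div_bb (c : ℕ) {s : ℕ} (hs : s < 2 * kk M) : (c * bb M + s) / bb M = c := by
  have h1 : s < bb M := by unfold bb; omega
  rw [mul_comm, Nat.mul_add_div (bb_pos M), Nat.div_eq_of_lt h1, add_zero]

theorem mod_bb (c : ℕ) {s : ℕ} (hs : s < 2 * kk M) : (c * bb M + s) % bb M = s := by
  have h1 : s < bb M := by unfold bb; omega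
  rw [mul_comm, Nat.mul_add_mod, Nat.mod_eq_of_lt h1]

theorem inv_swap {q d : ℕ} {A : List ℕ} (hq : q < M.1) (hd : d < 2) (hA : Dig M A) :
    inv M (pre (bb M) (ctl M 2 q d :: A)) = ctl M 0 q d * bb M := by
  have h := dig_lt (ctl_lt (kind := 2) (by omega) hq hd) hA
  unfold inv
  rw [pre_div3 (bb_pos M) h]
  have e : ctl M 2 q d - 4 = ctl M 0 q d := by unfold ctl; omega
  simp [ck_ctl (show 2 < 3 by omega) hd, e]

theorem inv_work {kind q d c s : ℕ} {O : List ℕ} (hk : kind < 2) (hq : q < M.1) (hd : d < 2)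
    (hc : kk M ≤ c) (hc' : c < 2 * kk M) (hs : s < 2 * kk M) (hO : Dig M O) :
    inv M (pre (bb M) (ctl M kind q d :: (rcd M c s ++ O))) = c * bb M + s := by
  have hk3 : kind < 3 := by omega
  have h := dig_lt (ctl_lt hk3 hq hd) (Dig.rcd hc hc' hs hO)
  unfold inv
  rw [pre_div3 (bb_pos M) h, pre_d1 (bb_pos M) h, pre_d2 (bb_pos M) h, pre_d3 (bb_pos M) h]
  simp [ck_ctl hk3 hd, show kind ≠ 2 by omega, rcd, Nat.div_add_mod']

/-- The rule can be read off from the new window. -/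
def Fine (M : Machine) (g : List ℕ × List ℕ) : Prop :=
  inv M (pre (bb M) (mstep M g).1) = lev M (pre (bb M) g.1)

theorem mstep_swap {q d : ℕ} {O : List ℕ} (A : List ℕ) (hq : q < M.1) (hd : d < 2)
    (hO : Dig M O) : mstep M (ctl M 0 q d :: O, A) = (ctl M 2 q d :: A, O) := by
  have e : ctl M 0 q d + 4 = ctl M 2 q d := by unfold ctl; omega
  simp [mstep, lev_swap hq hd hO, uw, vw, pw, Nat.mul_div_cancel _ (bb_pos M),
    ck_ctl (show 0 < 3 by omega) hd, e]

theorem fine_swap {q d : ℕ} {O A : List ℕ} (hq : q < M.1) (hd : d < 2)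
    (hO : Dig M O) (hA : Dig M A) : Fine M (ctl M 0 q d :: O, A) := by
  rw [Fine, mstep_swap A hq hd hO, inv_swap hq hd hA, lev_swap hq hd hO]

section work

variable {kind q d : ℕ} {A : List ℕ} (O : List ℕ) (hk : kind = 1 ∨ kind = 2) (hq : q < M.1)
  (hd : d < 2) (hA : Dig M A)
include hk hq hd hA

theorem pw_work : pw M (lev M (pre (bb M) (ctl M kind q d :: A))) =
    [ctl M kind q d, A.getD 0 0] := by
  have hk3 : kind < 3 := by omega
  rw [lev_work hk hq hd hA, pw, div_bb _ hA.head, mod_bb _ hA.head, ck_ctl hk3 hd,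
    if_neg (by omega)]

theorem mstep_garbage (hs : kk M ≤ A.getD 0 0) : mstep M (ctl M kind q d :: A, O) =
    (ctl M 0 q d :: (rcd M (ctl M kind q d) (A.getD 0 0) ++ O), A.tail) := by
  have hk3 : kind < 3 := by omega
  rw [mstep, pw_work hk hq hd hA, lev_work hk hq hd hA, uw, vw, div_bb _ hA.head,
    mod_bb _ hA.head, ck_ctl hk3 hd, cq_ctl hk3 hd, cd_ctl hd, if_neg (by omega),
    if_pos hs, if_neg (by omega), if_pos hs]
  simp

theorem mstep_on (hs : A.getD 0 0 < kk M)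
    (hm : (M.entry q (A.getD 0 0)).2.2 = 2 * (d : ℤ) - 1) : mstep M (ctl M kind q d :: A, O) =
    (ctl M 0 (M.entry q (A.getD 0 0)).1 d :: (rcd M (ctl M kind q d) (A.getD 0 0) ++
      (M.entry q (A.getD 0 0)).2.1 :: O), A.tail) := by
  have hk3 : kind < 3 := by omega
  rw [mstep, pw_work hk hq hd hA, lev_work hk hq hd hA, uw, vw, div_bb _ hA.head,
    mod_bb _ hA.head, ck_ctl hk3 hd, cq_ctl hk3 hd, cd_ctl hd, if_neg (by omega),
    if_neg (by omega), if_pos hm, if_neg (by omega), if_neg (by omega), if_pos hm]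
  simp

theorem mstep_stay (hs : A.getD 0 0 < kk M) (hm : (M.entry q (A.getD 0 0)).2.2 = 0) :
    mstep M (ctl M kind q d :: A, O) =
    (ctl M 0 (M.entry q (A.getD 0 0)).1 d :: (rcd M (ctl M kind q d) (A.getD 0 0) ++ O),
      (M.entry q (A.getD 0 0)).2.1 :: A.tail) := by
  have hk3 : kind < 3 := by omega
  rw [mstep, pw_work hk hq hd hA, lev_work hk hq hd hA, uw, vw, div_bb _ hA.head,
    mod_bb _ hA.head, ck_ctl hk3 hd, cq_ctl hk3 hd, cd_ctl hd, if_neg (by omega),
    if_neg (by omega), if_neg (by omega), if_pos hm, if_neg (by omega), if_neg (by omega),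
    if_neg (by omega)]
  simp

theorem mstep_back (hs : A.getD 0 0 < kk M)
    (hm : (M.entry q (A.getD 0 0)).2.2 = 1 - 2 * (d : ℤ)) :
    mstep M (ctl M kind q d :: A, O) =
    (ctl M 1 (M.entry q (A.getD 0 0)).1 (1 - d) :: (rcd M (ctl M kind q d) (A.getD 0 0) ++ O),
      (M.entry q (A.getD 0 0)).2.1 :: A.tail) := by
  have hk3 : kind < 3 := by omega
  rw [mstep, pw_work hk hq hd hA, lev_work hk hq hd hA, uw, vw, div_bb _ hA.head,
    mod_bb _ hA.head, ck_ctl hk3 hd, cq_ctl hk3 hd, cd_ctl hd, if_neg (by omega),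
    if_neg (by omega), if_neg (by omega), if_neg (by omega), if_neg (by omega),
    if_neg (by omega), if_neg (by omega)]
  simp

theorem fine_work (kind' : ℕ) {q' d' : ℕ} {O' : List ℕ} (hk' : kind' < 2) (hq' : q' < M.1)
    (hd' : d' < 2) (hO' : Dig M O') (h : (mstep M (ctl M kind q d :: A, O)).1 =
      ctl M kind' q' d' :: (rcd M (ctl M kind q d) (A.getD 0 0) ++ O')) :
    Fine M (ctl M kind q d :: A, O) := by
  have hk3 : kind < 3 := by omega
  rw [Fine, h, inv_work hk' hq' hd' (le_ctl _ _ _) (ctl_lt hk3 hq hd) hA.head hO',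
    lev_work hk hq hd hA]

end work

theorem step_garbage {c : ℕ × ℤ × (ℤ → ℕ)} {kind d : ℕ} {A O : List ℕ}
    (hk : kind = 1 ∨ kind = 2) (h : Rep M c d A O) (hs : kk M ≤ A.getD 0 0) :
    Rep M c d A.tail (rcd M (ctl M kind c.1 d) (A.getD 0 0) ++ O) := by
  have hk3 : kind < 3 := by omega
  refine ⟨h.hq, h.hd, h.dA.tail, Dig.rcd (le_ctl _ _ _) (ctl_lt hk3 h.hq h.hd) h.dA.head h.dO,
    ?_, ?_⟩
  · rw [fl_tail_garbage hs]; exact h.tA
  · rw [fl_rcd (le_ctl _ _ _)]; exact h.tO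

theorem step_tape (hM : M.WF) {c : ℕ × ℤ × (ℤ → ℕ)} {kind d : ℕ} {A O : List ℕ}
    (hk : kind = 1 ∨ kind = 2) (h : Rep M c d A O) (hs : A.getD 0 0 < kk M) :
    R M (M.step c) (mstep M (ctl M kind c.1 d :: A, O)) ∧ Fine M (ctl M kind c.1 d :: A, O) := by
  have hk3 : kind < 3 := by omega
  obtain ⟨q, z, tape⟩ := c
  have hq : q < M.1 := h.hq
  have hd := h.hd
  have tA : ∀ i : ℕ, tape (z + (2 * (d : ℤ) - 1) * i) = (fl M A).getD i 0 := h.tA
  have tO : ∀ i : ℕ, tape (z - (2 * (d : ℤ) - 1) * (1 + i)) = (fl M O).getD i 0 := h.tO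
  have hz : tape z = A.getD 0 0 := by
    have := tA 0
    rw [fl_head hs] at this
    simpa using this
  obtain ⟨e1, e2, e3⟩ := entry_ok hM hq (h.dA.head_lt hM hs)
  have hc := le_ctl (M := M) kind q d
  have hc' := ctl_lt hk3 hq hd
  have hε : (2 * (d : ℤ) - 1) ≠ 0 := by omega
  have hstep : M.step (q, z, tape) = ((M.entry q (A.getD 0 0)).1,
      z + (M.entry q (A.getD 0 0)).2.2, Function.update tape z (M.entry q (A.getD 0 0)).2.1) := by
    rw [Machine.step, hz]
  have tT : ∀ i : ℕ, Function.update tape z (M.entry q (A.getD 0 0)).2.1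
      (z + (2 * (d : ℤ) - 1) * i) = (fl M ((M.entry q (A.getD 0 0)).2.1 :: A.tail)).getD i 0 := by
    intro i
    rw [fl_cons e2]
    cases i with
    | zero => simp
    | succ i =>
      rw [Function.update_of_ne, tA, List.getD_cons_succ, fl_tail hs]
      intro hh
      have : (2 * (d : ℤ) - 1) * ((i + 1 : ℕ) : ℤ) = 0 := by linarith
      rcases mul_eq_zero.1 this with h1 | h1 <;> omega
  have tO' : ∀ i : ℕ, Function.update tape z (M.entry q (A.getD 0 0)).2.1
      (z - (2 * (d : ℤ) - 1) * (1 + i)) = (fl M O).getD i 0 := by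
    intro i
    rw [Function.update_of_ne, tO]
    intro hh
    have : (2 * (d : ℤ) - 1) * (1 + (i : ℤ)) = 0 := by linarith
    rcases mul_eq_zero.1 this with h1 | h1 <;> omega
  rw [hstep]
  by_cases hm : (M.entry q (A.getD 0 0)).2.2 = 2 * (d : ℤ) - 1
  · have e := mstep_on O hk hq hd h.dA hs hm
    refine ⟨⟨d, A.tail, _, ⟨e1, hd, h.dA.tail, Dig.rcd hc hc' h.dA.head (h.dO.cons e2), ?_, ?_⟩,
      Or.inl e⟩, fine_work O hk hq hd h.dA 0 (by omega) e1 hd (h.dO.cons e2) (by rw [e])⟩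
    · intro i
      have := tT (i + 1)
      rw [fl_cons e2, List.getD_cons_succ] at this
      rw [← this, hm]
      simp only
      congr 1
      push_cast; ring
    · intro i
      rw [fl_rcd hc, fl_cons e2, hm]
      simp only
      cases i with
      | zero => simp
      | succ i =>
        rw [List.getD_cons_succ, ← tO' i]
        congr 1
        push_cast; ring
  · by_cases hm0 : (M.entry q (A.getD 0 0)).2.2 = 0
    · have e := mstep_stay O hk hq hd h.dA hs hm0
      refine ⟨⟨d, _, _, ⟨e1, hd, h.dA.tail.cons e2, Dig.rcd hc hc' h.dA.head h.dO, ?_, ?_⟩,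
        Or.inl e⟩, fine_work O hk hq hd h.dA 0 (by omega) e1 hd h.dO (by rw [e])⟩
      · intro i
        rw [← tT i, hm0]
        simp
      · intro i
        rw [fl_rcd hc, ← tO' i, hm0]
        simp
    · have hm1 : (M.entry q (A.getD 0 0)).2.2 = 1 - 2 * (d : ℤ) := by omega
      have e := mstep_back O hk hq hd h.dA hs hm1
      have hd1 : ((1 - d : ℕ) : ℤ) = 1 - d := by omega
      refine ⟨⟨1 - d, _, _, ⟨e1, by omega, Dig.rcd hc hc' h.dA.head h.dO, h.dA.tail.cons e2,
        ?_, ?_⟩, Or.inr (Or.inl e)⟩,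
        fine_work O hk hq hd h.dA 1 (by omega) e1 (show 1 - d < 2 by omega) h.dO (by rw [e])⟩
      · intro i
        rw [fl_rcd hc, ← tO' i, hm1, hd1]
        simp only
        congr 1
        ring
      · intro i
        rw [← tT i, hm1, hd1]
        simp only
        congr 1
        ring

/-- One step of the rewriting system is no step or one step of the machine. -/
theorem R.step (hM : M.WF) {c : ℕ × ℤ × (ℤ → ℕ)} {g : List ℕ × List ℕ} (h : R M c g) :
    (R M c (mstep M g) ∨ R M (M.step c) (mstep M g)) ∧ Fine M g := by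
  obtain ⟨d, A, O, h, hg⟩ := h
  have work : ∀ kind, kind = 1 ∨ kind = 2 →
      (R M c (mstep M (ctl M kind c.1 d :: A, O)) ∨
        R M (M.step c) (mstep M (ctl M kind c.1 d :: A, O))) ∧
        Fine M (ctl M kind c.1 d :: A, O) := by
    intro kind hk
    rcases lt_or_ge (A.getD 0 0) (kk M) with hs | hs
    · exact ⟨Or.inr (step_tape hM hk h hs).1, (step_tape hM hk h hs).2⟩
    · have e := mstep_garbage O hk h.hq h.hd h.dA hs
      exact ⟨Or.inl ⟨d, _, _, step_garbage hk h hs, Or.inl e⟩,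
        fine_work O hk h.hq h.hd h.dA 0 (by omega) h.hq h.hd h.dO (by rw [e])⟩
  rcases hg with rfl | rfl | rfl
  · exact ⟨Or.inl ⟨d, A, O, h, Or.inr (Or.inr (mstep_swap A h.hq h.hd h.dO))⟩,
      fine_swap h.hq h.hd h.dO h.dA⟩
  · exact work 1 (Or.inl rfl)
  · exact work 2 (Or.inr rfl)

theorem progress_work (hM : M.WF) {c : ℕ × ℤ × (ℤ → ℕ)} {d : ℕ} (A : List ℕ) :
    ∀ {kind : ℕ} {O : List ℕ}, kind = 1 ∨ kind = 2 → Rep M c d A O →
      ∃ t, R M (M.step c) ((mstep M)^[t] (ctl M kind c.1 d :: A, O)) := by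
  induction A with
  | nil =>
    intro kind O hk h
    exact ⟨1, (step_tape hM hk h (by have := kk_pos M; simp; omega)).1⟩
  | cons a A ih =>
    intro kind O hk h
    rcases lt_or_ge ((a :: A).getD 0 0) (kk M) with hs | hs
    · exact ⟨1, (step_tape hM hk h hs).1⟩
    · have h' := step_garbage hk h hs
      obtain ⟨t, ht⟩ := ih (kind := 2) (Or.inr rfl) h'
      refine ⟨t + 1 + 1, ?_⟩
      rw [Function.iterate_succ_apply, Function.iterate_succ_apply,
        mstep_garbage O hk h.hq h.hd h.dA hs, mstep_swap _ h.hq h.hd h'.dO]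
      exact ht

theorem R.progress (hM : M.WF) {c : ℕ × ℤ × (ℤ → ℕ)} {g : List ℕ × List ℕ} (h : R M c g) :
    ∃ t, R M (M.step c) ((mstep M)^[t] g) := by
  obtain ⟨d, A, O, h, rfl | rfl | rfl⟩ := h
  · obtain ⟨t, ht⟩ := progress_work hM A (kind := 2) (Or.inr rfl) h
    refine ⟨t + 1, ?_⟩
    rw [Function.iterate_succ_apply, mstep_swap _ h.hq h.hd h.dO]
    exact ht
  · exact progress_work hM A (Or.inl rfl) h
  · exact progress_work hM A (Or.inr rfl) h

theorem R.dig {c : ℕ × ℤ × (ℤ → ℕ)} {g : List ℕ × List ℕ} (h : R M c g) :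
    (∀ x ∈ g.1, x < 2 * kk M) ∧ ∀ x ∈ g.2, x < 2 * kk M := by
  have key : ∀ {kind q d : ℕ} {A : List ℕ}, kind < 3 → q < M.1 → d < 2 → Dig M A →
      ∀ x ∈ ctl M kind q d :: A, x < 2 * kk M := by
    intro kind q d A hk hq hd hA x hx
    rcases List.mem_cons.1 hx with rfl | hx
    · exact ctl_lt hk hq hd
    · exact (hA x hx).1
  obtain ⟨d, A, O, h, rfl | rfl | rfl⟩ := h
  · exact ⟨key (by omega) h.hq h.hd h.dO, fun x hx => (h.dA x hx).1⟩
  · exact ⟨key (by omega) h.hq h.hd h.dA, fun x hx => (h.dO x hx).1⟩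
  · exact ⟨key (by omega) h.hq h.hd h.dA, fun x hx => (h.dO x hx).1⟩

theorem R.hlt {c : ℕ × ℤ × (ℤ → ℕ)} {g : List ℕ × List ℕ} (h : R M c g) :
    hlt M (pre (bb M) g.1) = true ↔ c.1 ∈ M.2.2.2.1 := by
  have hB : ∀ x ∈ g.1, x < bb M := fun x hx => by
    have := h.dig.1 x hx; unfold bb; omega
  unfold Q113.hlt
  rw [pre_div3 (bb_pos M) hB]
  obtain ⟨d, A, O, h, rfl | rfl | rfl⟩ := h <;> simp [cq_ctl _ h.hd]

theorem R_start (hM : M.WF) {w : List ℕ} (hw : M.Word w) : R M (M.init w) (start M w, []) := by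
  have hd : Dig M w := fun x hx => by
    have := hw x hx
    exact ⟨by unfold kk; omega, fun _ => this⟩
  have hf : fl M w = w := by
    refine List.filter_eq_self.2 fun x hx => ?_
    have := hw x hx
    simp only [decide_eq_true_eq]
    unfold kk; omega
  refine ⟨1, w, [], ⟨hM.2.1, by omega, hd, fun x hx => by simp at hx, ?_, ?_⟩,
    Or.inr (Or.inl rfl)⟩
  · intro i
    simp [Machine.init, hf]
  · intro i
    have : ¬(0 : ℤ) ≤ 0 - (2 * ((1 : ℕ) : ℤ) - 1) * (1 + i) := by push_cast; omega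
    simp only [Machine.init, if_neg this]
    rfl

theorem cfg_rep (hM : M.WF) {w : List ℕ} (hw : M.Word w) (t : ℕ) :
    ∃ n, R M (M.step^[n] (M.init w)) (cfg M w t) := by
  induction t with
  | zero => exact ⟨0, R_start hM hw⟩
  | succ t ih =>
    obtain ⟨n, hn⟩ := ih
    rw [cfg_succ]
    rcases (hn.step hM).1 with h | h
    · exact ⟨n, h⟩
    · exact ⟨n + 1, by rw [Function.iterate_succ_apply']; exact h⟩

theorem rep_cfg (hM : M.WF) {w : List ℕ} (hw : M.Word w) (n : ℕ) :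
    ∃ t, R M (M.step^[n] (M.init w)) (cfg M w t) := by
  induction n with
  | zero => exact ⟨0, R_start hM hw⟩
  | succ n ih =>
    obtain ⟨t, ht⟩ := ih
    obtain ⟨s, hs⟩ := ht.progress hM
    refine ⟨s + t, ?_⟩
    rw [Function.iterate_succ_apply', cfg, Function.iterate_add_apply]
    exact hs

theorem sim {w : List ℕ} (hM : M.WF) (hw : M.Word w) :
    (∀ t, Loc M w t) ∧ (∀ t, Stp M w t) ∧ ((∃ t, hlt M (ws M w t) = true) ↔ M.Halts w) := by
  refine ⟨fun t => ?_, fun t => ?_, ⟨?_, ?_⟩⟩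
  · obtain ⟨n, hn⟩ := cfg_rep hM hw t
    exact loc_of_dig hn.dig.1 hn.dig.2
  · obtain ⟨n, hn⟩ := cfg_rep hM hw t
    refine stp_of hn.dig.1 ?_
    rw [ws, cfg_succ]
    exact (hn.step hM).2
  · rintro ⟨t, ht⟩
    obtain ⟨n, hn⟩ := cfg_rep hM hw t
    exact ⟨n, hn.hlt.1 ht⟩
  · rintro ⟨n, hn⟩
    obtain ⟨t, ht⟩ := rep_cfg hM hw n
    exact ⟨t, ht.hlt.2 hn⟩

end Vale.Agent.Q113
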