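import Vale.Agent.Q113.Bump
import Vale.Agent.Q113.PR

/-!
# P113: symbolic calculus of admissible functions

Derivatives and products of terms as lists of terms, the force `∂_t u + (u·∇)u - ν Δu` of an
admissible velocity field, and the resulting classical solution with zero pressure.
-/

noncomputable section

namespace Vale.Agent.Q113

open Set

/-! ### The symbolic operations -/

/-- The product rule. -/
def dProd {β : Type} (D : β → List (ℚ × β)) : List β → List (ℚ × List β)
  | [] => []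
  | g :: l => (D g).map (fun p => (p.1, p.2 :: l)) ++ (dProd D l).map fun p => (p.1, g :: p.2)

/-- The derivative of a time factor. -/
def flagD (g : Bool × Bump) : List (ℚ × Bool × Bump) := g.2.D.map fun p => (p.1, g.1, p.2)

/-- The time derivative of a term. -/
def Term.Dt (τ : Term) : List Term :=
  (dProd flagD τ.2.2.2.2.1).map fun p =>
    (p.1 * τ.1, τ.2.1, τ.2.2.1, τ.2.2.2.1, p.2, τ.2.2.2.2.2)

/-- The derivative of a term in the `i`-th coordinate. -/
def Term.Dx (i : Fin 3) (τ : Term) : List Term :=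
  (dProd Bump.D (τ.2.2.2.2.2 i)).map fun p =>
    (p.1 * τ.1, τ.2.1, τ.2.2.1, τ.2.2.2.1, τ.2.2.2.2.1, Function.update τ.2.2.2.2.2 i p.2)

/-- The product of two terms. -/
def Term.mul (τ τ' : Term) : Term :=
  (τ.1 * τ'.1, τ.2.1 + τ'.2.1, τ.2.2.1 + τ'.2.2.1, τ.2.2.2.1 ++ τ'.2.2.2.1,
    τ.2.2.2.2.1 ++ τ'.2.2.2.2.1, fun i => τ.2.2.2.2.2 i ++ τ'.2.2.2.2.2 i)

/-- A term multiplied by `-ν`. -/
def Term.negNu (τ : Term) : Term := (-τ.1, τ.2.1 + 1, τ.2.2)

/-- The product of two lists of terms. -/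
def mulL (L L' : List Term) : List Term := L.flatMap fun τ => L'.map τ.mul

/-- The terms of `u_i ∂_i u_j - ν ∂_i ∂_i u_j`. -/
def nsPart (U : Fin 3 → List Term) (j i : Fin 3) : List Term :=
  mulL (U i) ((U j).flatMap (Term.Dx i)) ++
    (((U j).flatMap (Term.Dx i)).flatMap (Term.Dx i)).map Term.negNu

/-- The terms of `∂_t u_j + ∑_i u_i ∂_i u_j - ν ∑_i ∂_i ∂_i u_j`. -/
def nsForce (U : Fin 3 → List Term) (j : Fin 3) : List Term :=
  (U j).flatMap Term.Dt ++ (nsPart U j 0 ++ (nsPart U j 1 ++ nsPart U j 2))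

/-! ### Primitive recursiveness -/

section Prim

open PR

@[fun_prop] theorem Bump.D_primrec : Primrec Bump.D := by unfold Bump.D; fun_prop

theorem dProd_eq {β : Type} (D : β → List (ℚ × β)) (l : List β) :
    l.foldr (fun g (r : List β × List (ℚ × List β)) => (g :: r.1,
      (D g).map (fun p => (p.1, p.2 :: r.1)) ++ r.2.map fun p => (p.1, g :: p.2))) ([], []) =
      (l, dProd D l) := by
  induction l with
  | nil => rfl
  | cons g l ih => rw [List.foldr_cons, ih]; rfl

theorem dProd_primrec {β : Type} [Primcodable β] {D : β → List (ℚ × β)} (hD : Primrec D) :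
    Primrec (dProd D) := by
  have h : Primrec fun l : List β => (l.foldr (fun g (r : List β × List (ℚ × List β)) =>
      (g :: r.1, (D g).map (fun p => (p.1, p.2 :: r.1)) ++ r.2.map fun p => (p.1, g :: p.2)))
      ([], [])).2 := by fun_prop
  exact h.of_eq fun l => by rw [dProd_eq]

@[fun_prop] theorem flagD_primrec : Primrec flagD := by unfold flagD; fun_prop

@[fun_prop] theorem Term.Dt_primrec : Primrec Term.Dt := by
  have h := dProd_primrec flagD_primrec
  unfold Term.Dt; fun_prop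

@[fun_prop] theorem Term.Dx_primrec (i : Fin 3) : Primrec (Term.Dx i) := by
  have h := dProd_primrec Bump.D_primrec
  unfold Term.Dx; fun_prop

@[fun_prop] theorem Term.mul_primrec {α : Type} [Primcodable α] {f g : α → Term}
    (hf : Primrec f) (hg : Primrec g) : Primrec fun a => (f a).mul (g a) := by
  unfold Term.mul; fun_prop

@[fun_prop] theorem Term.negNu_primrec : Primrec Term.negNu := by unfold Term.negNu; fun_prop

@[fun_prop] theorem mulL_primrec {α : Type} [Primcodable α] {f g : α → List Term}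
    (hf : Primrec f) (hg : Primrec g) : Primrec fun a => mulL (f a) (g a) := by
  unfold mulL; fun_prop

@[fun_prop] theorem nsPart_primrec (j i : Fin 3) : Primrec fun U => nsPart U j i := by
  unfold nsPart; fun_prop

@[fun_prop] theorem nsForce_primrec : Primrec nsForce := by
  unfold nsForce; fun_prop

end Prim

/-! ### Well-formedness, periodic terms, vanishing -/

theorem dProd_forall {β : Type} {D : β → List (ℚ × β)} {P : β → Prop}
    (hD : ∀ g, P g → ∀ p ∈ D g, P p.2) {l : List β} (hl : ∀ g ∈ l, P g) :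
    ∀ p ∈ dProd D l, ∀ g ∈ p.2, P g := by
  induction l with
  | nil => simp [dProd]
  | cons g l ih =>
    have hg := hl g (by simp)
    have hl' : ∀ g ∈ l, P g := fun g' h => hl g' (by simp [h])
    simp only [dProd, List.mem_append, List.mem_map]
    rintro p (⟨q, hq, rfl⟩ | ⟨q, hq, rfl⟩) g' hg'
    · rcases List.mem_cons.1 hg' with rfl | h
      · exact hD g hg q hq
      · exact hl' g' h
    · rcases List.mem_cons.1 hg' with rfl | h
      · exact hg
      · exact ih hl' q hq g' h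

theorem dProd_all {β : Type} {D : β → List (ℚ × β)} {P : β → Bool}
    (hD : ∀ g, ∀ p ∈ D g, P p.2 = P g) (l : List β) :
    ∀ p ∈ dProd D l, p.2.all P = l.all P := by
  induction l with
  | nil => simp [dProd]
  | cons g l ih =>
    simp only [dProd, List.mem_append, List.mem_map]
    rintro p (⟨q, hq, rfl⟩ | ⟨q, hq, rfl⟩)
    · simp [hD g q hq]
    · simp only [List.all_cons, ih q hq]

theorem flagD_mem {g : Bool × Bump} {p : ℚ × Bool × Bump} (hp : p ∈ flagD g) :
    p.2.1 = g.1 ∧ (p.1, p.2.2) ∈ g.2.D := by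
  obtain ⟨q, hq, rfl⟩ := List.mem_map.1 hp
  exact ⟨rfl, hq⟩

theorem Term.ok_iff (τ : Term) : τ.Valid ↔ (∀ r ∈ τ.2.2.2.1, 0 < r) ∧ (∀ g ∈ τ.2.2.2.2.1, g.2.Ok) ∧
    ∀ i, ∀ g ∈ τ.2.2.2.2.2 i, g.Ok := Iff.rfl

theorem Term.periodic_eq (τ : Term) : τ.periodic = τ.2.2.2.2.1.all fun g => g.1 := rfl

theorem Term.Dt_ok {τ : Term} (h : τ.Valid) : ∀ σ ∈ τ.Dt, σ.Valid := by
  intro σ hσ
  obtain ⟨p, hp, rfl⟩ := List.mem_map.1 hσ
  exact ⟨h.1, dProd_forall (P := fun g : Bool × Bump => g.2.Ok)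
    (fun g hg q hq => Bump.Ok.D hg _ (flagD_mem hq).2) h.2.1 p hp, h.2.2⟩

theorem Term.Dx_ok (i : Fin 3) {τ : Term} (h : τ.Valid) : ∀ σ ∈ τ.Dx i, σ.Valid := by
  intro σ hσ
  obtain ⟨p, hp, rfl⟩ := List.mem_map.1 hσ
  refine ⟨h.1, h.2.1, fun k => ?_⟩
  by_cases hk : k = i
  · subst hk
    simp only [Function.update_self]
    exact dProd_forall (P := Bump.Ok) (fun g hg => Bump.Ok.D hg) (h.2.2 k) p hp
  · simp only [Function.update_of_ne hk]
    exact h.2.2 k

theorem Term.mul_ok {τ τ' : Term} (h : τ.Valid) (h' : τ'.Valid) : (τ.mul τ').Valid := by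
  refine ⟨fun r hr => ?_, fun g hg => ?_, fun i g hg => ?_⟩
  · rcases List.mem_append.1 hr with hr | hr
    exacts [h.1 r hr, h'.1 r hr]
  · rcases List.mem_append.1 hg with hg | hg
    exacts [h.2.1 g hg, h'.2.1 g hg]
  · rcases List.mem_append.1 hg with hg | hg
    exacts [h.2.2 i g hg, h'.2.2 i g hg]

theorem Term.negNu_ok {τ : Term} (h : τ.Valid) : τ.negNu.Valid := h

/-- A property of terms that is preserved by the four operations is inherited by the force. -/
theorem nsForce_forall {P : Term → Prop} (hT : ∀ τ, P τ → ∀ σ ∈ τ.Dt, P σ)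
    (hX : ∀ i τ, P τ → ∀ σ ∈ τ.Dx i, P σ) (hM : ∀ τ τ', P τ → P τ' → P (τ.mul τ'))
    (hN : ∀ τ, P τ → P τ.negNu) {U : Fin 3 → List Term} (hU : ∀ j, ∀ τ ∈ U j, P τ) (j : Fin 3) :
    ∀ τ ∈ nsForce U j, P τ := by
  have hx : ∀ i (L : List Term), (∀ τ ∈ L, P τ) → ∀ τ ∈ L.flatMap (Term.Dx i), P τ := by
    intro i L hL τ hτ
    obtain ⟨σ, hσ, h⟩ := List.mem_flatMap.1 hτ
    exact hX i σ (hL σ hσ) τ h
  have hp : ∀ i, ∀ τ ∈ nsPart U j i, P τ := by
    intro i τ hτ
    rcases List.mem_append.1 hτ with h | h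
    · obtain ⟨σ, hσ, h⟩ := List.mem_flatMap.1 h
      obtain ⟨σ', hσ', rfl⟩ := List.mem_map.1 h
      exact hM _ _ (hU i σ hσ) (hx i _ (hU j) σ' hσ')
    · obtain ⟨σ, hσ, rfl⟩ := List.mem_map.1 h
      exact hN _ (hx i _ (hx i _ (hU j)) σ hσ)
  intro τ hτ
  simp only [nsForce, List.mem_append] at hτ
  rcases hτ with h | h | h | h
  · obtain ⟨σ, hσ, h⟩ := List.mem_flatMap.1 h
    exact hT σ (hU j σ hσ) τ h
  exacts [hp 0 τ h, hp 1 τ h, hp 2 τ h]

theorem nsForce_ok {U : Fin 3 → List Term} (hU : ∀ j, ∀ τ ∈ U j, τ.Valid) (j : Fin 3) :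
    ∀ τ ∈ nsForce U j, τ.Valid :=
  nsForce_forall (fun _ => Term.Dt_ok) (fun i _ => Term.Dx_ok i) (fun _ _ => Term.mul_ok)
    (fun _ => Term.negNu_ok) hU j

theorem Term.Dt_periodic (τ : Term) : ∀ σ ∈ τ.Dt, σ.periodic = τ.periodic := by
  intro σ hσ
  obtain ⟨p, hp, rfl⟩ := List.mem_map.1 hσ
  exact dProd_all (P := fun g : Bool × Bump => g.1) (fun g q hq => (flagD_mem hq).1) _ p hp

theorem Term.Dx_periodic (i : Fin 3) (τ : Term) : ∀ σ ∈ τ.Dx i, σ.periodic = τ.periodic := by
  intro σ hσ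
  obtain ⟨p, _, rfl⟩ := List.mem_map.1 hσ
  rfl

theorem Term.mul_periodic (τ τ' : Term) : (τ.mul τ').periodic = (τ.periodic && τ'.periodic) :=
  List.all_append

theorem Term.negNu_periodic (τ : Term) : τ.negNu.periodic = τ.periodic := rfl

theorem filter_flatMap_of {F : Term → List Term} (hF : ∀ τ, ∀ σ ∈ F τ, σ.periodic = τ.periodic)
    (L : List Term) :
    (L.flatMap F).filter Term.periodic = (L.filter Term.periodic).flatMap F := by
  induction L with
  | nil => rfl
  | cons τ L ih =>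
    rw [List.flatMap_cons, List.filter_append, ih, List.filter_cons]
    cases h : τ.periodic
    · rw [List.filter_eq_nil_iff.2 fun σ hσ => by simp [hF τ σ hσ, h]]
      simp
    · rw [List.filter_eq_self.2 fun σ hσ => by simp [hF τ σ hσ, h]]
      simp

theorem filter_mulL (L L' : List Term) : (mulL L L').filter Term.periodic =
    mulL (L.filter Term.periodic) (L'.filter Term.periodic) := by
  induction L with
  | nil => rfl
  | cons τ L ih =>
    unfold mulL at ih ⊢
    rw [List.flatMap_cons, List.filter_append, ih, List.filter_cons, List.filter_map]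
    cases h : τ.periodic
    · rw [List.filter_eq_nil_iff.2 fun σ _ => by simp [Term.mul_periodic, h]]
      simp
    · rw [List.filter_congr (q := Term.periodic) fun σ _ => by simp [Term.mul_periodic, h]]
      simp

theorem filter_negNu (L : List Term) : (L.map Term.negNu).filter Term.periodic =
    (L.filter Term.periodic).map Term.negNu := by
  rw [List.filter_map]; rfl

/-- The periodic terms of the force are those of the force of the periodic terms. -/
theorem filter_nsForce (U : Fin 3 → List Term) (j : Fin 3) :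
    (nsForce U j).filter Term.periodic = nsForce (fun i => (U i).filter Term.periodic) j := by
  simp only [nsForce, nsPart, List.filter_append, filter_mulL, filter_negNu,
    filter_flatMap_of Term.Dt_periodic, filter_flatMap_of (Term.Dx_periodic _)]

/-- All time factors that are not periodized vanish on `[T, ∞)`. -/
def Term.Late (T : ℚ) (τ : Term) : Prop := ∀ g ∈ τ.2.2.2.2.1, g.1 = false → g.2.Late T

theorem nsForce_late {T : ℚ} {U : Fin 3 → List Term} (hL : ∀ j, ∀ τ ∈ U j, τ.Late T) (j : Fin 3) :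
    ∀ τ ∈ nsForce U j, τ.Late T := by
  refine nsForce_forall ?_ ?_ ?_ (fun τ h => h) hL j
  · intro τ h σ hσ
    obtain ⟨p, hp, rfl⟩ := List.mem_map.1 hσ
    exact dProd_forall (D := flagD) (P := fun g : Bool × Bump => g.1 = false → g.2.Late T)
      (fun g hg q hq h0 => (hg ((flagD_mem hq).1 ▸ h0)).D _ (flagD_mem hq).2) h p hp
  · intro i τ h σ hσ
    obtain ⟨p, _, rfl⟩ := List.mem_map.1 hσ
    exact h
  · intro τ τ' h h' g hg
    rcases List.mem_append.1 hg with hg | hg
    exacts [h g hg, h' g hg]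

/-! ### Evaluation -/

/-- The value of a time factor. -/
def flagEv (g : Bool × Bump) (t : ℝ) : ℝ := if g.1 then per g.2.ev t else g.2.ev t

/-- The constant of a term. -/
def Term.cst (ν : ℝ) (τ : Term) : ℝ :=
  ν ^ τ.2.1 * kappa ^ τ.2.2.1 * (τ.2.2.2.1.map fun r : ℚ => Real.log r).prod

theorem Term.ev_eq (ν : ℝ) (τ : Term) (t : ℝ) (x : V) : τ.value ν t x =
    τ.1 * τ.cst ν * (τ.2.2.2.2.1.map fun g => flagEv g t).prod *
      ∏ i, ((τ.2.2.2.2.2 i).map fun g => per g.ev (x i)).prod := by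
  rcases τ with ⟨q, m, n, rs, θ, h⟩
  simp only [Term.value, Term.cst, flagEv, mul_assoc]

theorem Term.ev_of_late {T : ℚ} {τ : Term} (hL : τ.Late T) (hp : τ.periodic = false)
    (ν : ℝ) {t : ℝ} (ht : (T : ℝ) ≤ t) (x : V) : τ.value ν t x = 0 := by
  rw [Term.periodic_eq, List.all_eq_false] at hp
  obtain ⟨g, hg, hg1⟩ := hp
  have hg1 : g.1 = false := by simpa using hg1
  have h0 : (τ.2.2.2.2.1.map fun g => flagEv g t).prod = 0 := by
    refine List.prod_eq_zero (List.mem_map.2 ⟨g, hg, ?_⟩)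
    simp [flagEv, hg1, (hL g hg hg1).ev ht]
  rw [Term.ev_eq, h0, mul_zero, zero_mul]

/-- The sum of a list of terms. -/
def sumEv (ν : ℝ) (L : List Term) (t : ℝ) (x : V) : ℝ := (L.map fun τ => τ.value ν t x).sum

theorem force_eq (ν : ℝ) (F : Fin 3 → List Term) (j : Fin 3) : force ν F j = sumEv ν (F j) := rfl

@[simp] theorem sumEv_nil (ν t : ℝ) (x : V) : sumEv ν [] t x = 0 := rfl

@[simp] theorem sumEv_cons (ν : ℝ) (τ : Term) (L : List Term) (t : ℝ) (x : V) :
    sumEv ν (τ :: L) t x = τ.value ν t x + sumEv ν L t x := by simp [sumEv]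

@[simp] theorem sumEv_append (ν : ℝ) (L L' : List Term) (t : ℝ) (x : V) :
    sumEv ν (L ++ L') t x = sumEv ν L t x + sumEv ν L' t x := by simp [sumEv]

theorem Term.ev_mul (ν : ℝ) (τ τ' : Term) (t : ℝ) (x : V) :
    (τ.mul τ').value ν t x = τ.value ν t x * τ'.value ν t x := by
  simp only [Term.ev_eq, Term.mul, Term.cst, List.map_append, List.prod_append,
    Finset.prod_mul_distrib, pow_add, zpow_add₀ kappa_pos.ne', Rat.cast_mul]
  ring

theorem Term.ev_negNu (ν : ℝ) (τ : Term) (t : ℝ) (x : V) :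
    τ.negNu.value ν t x = -(ν * τ.value ν t x) := by
  simp only [Term.ev_eq, Term.negNu, Term.cst, pow_succ, Rat.cast_neg]
  ring

theorem sumEv_mulL (ν : ℝ) (L L' : List Term) (t : ℝ) (x : V) :
    sumEv ν (mulL L L') t x = sumEv ν L t x * sumEv ν L' t x := by
  have h1 : ∀ τ : Term, sumEv ν (L'.map τ.mul) t x = τ.value ν t x * sumEv ν L' t x := by
    intro τ
    induction L' with
    | nil => simp
    | cons σ L' ih => simp [ih, Term.ev_mul, mul_add]
  induction L with
  | nil => simp [mulL]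
  | cons τ L ih =>
    unfold mulL at ih ⊢
    rw [List.flatMap_cons, sumEv_append, ih, h1, sumEv_cons, add_mul]

theorem sumEv_negNu (ν : ℝ) (L : List Term) (t : ℝ) (x : V) :
    sumEv ν (L.map Term.negNu) t x = -(ν * sumEv ν L t x) := by
  induction L with
  | nil => simp
  | cons σ L ih => simp only [List.map_cons, sumEv_cons, ih, Term.ev_negNu]; ring

/-! ### Derivatives -/

theorem flagEv_hasDerivAt {g : Bool × Bump} (hg : g.2.Ok) (s : ℝ) :
    HasDerivAt (flagEv g) (((flagD g).map fun p => (p.1 : ℝ) * flagEv p.2 s).sum) s := by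
  rcases g with ⟨_ | _, g⟩
  · refine (g.hasDerivAt s).congr_deriv ?_
    simp [flagD, flagEv, Function.comp_def]
  · refine (Bump.Ok.per_hasDerivAt hg s).congr_deriv ?_
    simp [flagD, flagEv, Function.comp_def]

theorem dProd_hasDerivAt {β : Type} {D : β → List (ℚ × β)} {E : β → ℝ → ℝ} {s : ℝ}
    {l : List β} (hl : ∀ g ∈ l, HasDerivAt (E g) (((D g).map fun p => (p.1 : ℝ) * E p.2 s).sum) s) :
    HasDerivAt (fun s => (l.map fun g => E g s).prod)
      (((dProd D l).map fun p => (p.1 : ℝ) * (p.2.map fun g => E g s).prod).sum) s := by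
  induction l with
  | nil => simpa [dProd] using hasDerivAt_const s (1 : ℝ)
  | cons g l ih =>
    have h := (hl g (by simp)).mul (ih fun g' h => hl g' (by simp [h]))
    simp only [List.map_cons, List.prod_cons]
    refine HasDerivAt.congr_deriv h ?_
    simp only [dProd, List.map_append, List.sum_append, List.map_map, Function.comp_def,
      List.map_cons, List.prod_cons]
    rw [← List.sum_map_mul_right, ← List.sum_map_mul_left]
    congr 1
    · exact congrArg List.sum (List.map_congr_left fun p _ => by ring)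
    · exact congrArg List.sum (List.map_congr_left fun p _ => by ring)

theorem Term.ev_hasDerivAt (ν : ℝ) {τ : Term} (h : τ.Valid) (t : ℝ) (x : V) :
    HasDerivAt (fun s => τ.value ν s x) (sumEv ν τ.Dt t x) t := by
  have h1 := dProd_hasDerivAt (D := flagD) (E := flagEv) (s := t)
    (fun g hg => flagEv_hasDerivAt (h.2.1 g hg) t)
  have h2 := (h1.const_mul (τ.1 * τ.cst ν)).mul_const
    (∏ i, ((τ.2.2.2.2.2 i).map fun g => per g.ev (x i)).prod)
  simp only [Term.ev_eq]
  refine HasDerivAt.congr_deriv h2 ?_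
  rw [← List.sum_map_mul_left, ← List.sum_map_mul_right, sumEv, Term.Dt, List.map_map]
  refine congrArg List.sum (List.map_congr_left fun p _ => ?_)
  simp only [Function.comp_def, Term.ev_eq, Term.cst, Rat.cast_mul]
  ring

theorem Term.ev_hasLineDerivAt (ν : ℝ) (i : Fin 3) {τ : Term} (h : τ.Valid) (t : ℝ) (x : V) :
    HasLineDerivAt ℝ (τ.value ν t) (sumEv ν (τ.Dx i) t x) x (Pi.single i 1) := by
  have h1 := dProd_hasDerivAt (D := Bump.D) (E := fun g => per g.ev) (s := x i)
    (fun g hg => (h.2.2 i g hg).per_hasDerivAt (x i))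
  have h0 : HasDerivAt (fun s : ℝ => x i + s) 1 0 := (hasDerivAt_id 0).const_add _
  have h1' := HasDerivAt.comp (0 : ℝ) (h₂ := fun s => ((τ.2.2.2.2.2 i).map fun g => per g.ev s).prod)
    (by simpa using h1) h0
  have h2 := (h1'.mul_const (∏ k ∈ Finset.univ.erase i,
    ((τ.2.2.2.2.2 k).map fun g => per g.ev (x k)).prod)).const_mul
    (τ.1 * τ.cst ν * (τ.2.2.2.2.1.map fun g => flagEv g t).prod)
  unfold HasLineDerivAt
  refine (h2.congr_of_eventuallyEq (Filter.Eventually.of_forall fun s => ?_)).congr_deriv ?_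
  · rw [Term.ev_eq, ← Finset.mul_prod_erase _ _ (Finset.mem_univ i)]
    congr 2
    · simp
    · refine Finset.prod_congr rfl fun k hk => ?_
      simp [Pi.single_eq_of_ne (Finset.ne_of_mem_erase hk)]
  · rw [mul_one, ← List.sum_map_mul_right, ← List.sum_map_mul_left, sumEv, Term.Dx, List.map_map]
    refine congrArg List.sum (List.map_congr_left fun p _ => ?_)
    simp only [Function.comp_def, Term.ev_eq, Term.cst, Rat.cast_mul]
    have e : ∏ k ∈ Finset.univ.erase i, ((Function.update τ.2.2.2.2.2 i p.2 k).map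
        fun g => per g.ev (x k)).prod =
        ∏ k ∈ Finset.univ.erase i, ((τ.2.2.2.2.2 k).map fun g => per g.ev (x k)).prod :=
      Finset.prod_congr rfl fun k hk => by rw [Function.update_of_ne (Finset.ne_of_mem_erase hk)]
    rw [← Finset.mul_prod_erase Finset.univ _ (Finset.mem_univ i), Function.update_self, e]
    ring

theorem sumEv_hasDerivAt (ν : ℝ) {L : List Term} (h : ∀ τ ∈ L, τ.Valid) (t : ℝ) (x : V) :
    HasDerivAt (fun s => sumEv ν L s x) (sumEv ν (L.flatMap Term.Dt) t x) t := by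
  induction L with
  | nil => simpa using hasDerivAt_const t (0 : ℝ)
  | cons τ L ih =>
    simp only [sumEv_cons, List.flatMap_cons, sumEv_append]
    exact (Term.ev_hasDerivAt ν (h τ (by simp)) t x).add (ih fun σ hσ => h σ (by simp [hσ]))

theorem sumEv_hasLineDerivAt (ν : ℝ) (i : Fin 3) {L : List Term} (h : ∀ τ ∈ L, τ.Valid) (t : ℝ)
    (x : V) :
    HasLineDerivAt ℝ (sumEv ν L t) (sumEv ν (L.flatMap (Term.Dx i)) t x) x (Pi.single i 1) := by
  unfold HasLineDerivAt
  induction L with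
  | nil => simpa using hasDerivAt_const (0 : ℝ) (0 : ℝ)
  | cons τ L ih =>
    simp only [sumEv_cons, List.flatMap_cons, sumEv_append]
    exact HasDerivAt.add (Term.ev_hasLineDerivAt ν i (h τ (by simp)) t x)
      (ih fun σ hσ => h σ (by simp [hσ]))

theorem flatMap_Dx_ok (i : Fin 3) {L : List Term} (h : ∀ τ ∈ L, τ.Valid) :
    ∀ τ ∈ L.flatMap (Term.Dx i), τ.Valid := fun τ hτ =>
  let ⟨σ, hσ, h'⟩ := List.mem_flatMap.1 hτ
  Term.Dx_ok i (h σ hσ) τ h'

theorem flatMap_Dt_ok {L : List Term} (h : ∀ τ ∈ L, τ.Valid) :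
    ∀ τ ∈ L.flatMap Term.Dt, τ.Valid := fun τ hτ =>
  let ⟨σ, hσ, h'⟩ := List.mem_flatMap.1 hτ
  Term.Dt_ok (h σ hσ) τ h'

theorem dx_sumEv (ν : ℝ) (i : Fin 3) {L : List Term} (h : ∀ τ ∈ L, τ.Valid) :
    dx i (sumEv ν L) = sumEv ν (L.flatMap (Term.Dx i)) :=
  funext fun t => funext fun x => (sumEv_hasLineDerivAt ν i h t x).lineDeriv

theorem dt_sumEv (ν : ℝ) {I : Set ℝ} (hI : UniqueDiffOn ℝ I) {L : List Term} (h : ∀ τ ∈ L, τ.Valid)
    {t : ℝ} (ht : t ∈ I) (x : V) : dt I (sumEv ν L) t x = sumEv ν (L.flatMap Term.Dt) t x :=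
  (sumEv_hasDerivAt ν h t x).hasDerivWithinAt.derivWithin (hI t ht)

/-! ### Smoothness and periodicity -/

theorem sumEv_contDiff (ν : ℝ) {L : List Term} (h : ∀ τ ∈ L, τ.Valid) :
    ContDiff ℝ (⊤ : ℕ∞) fun p : ℝ × V => sumEv ν L p.1 p.2 :=
  force_contDiff (F := fun _ => L) (j := 0) h ν

theorem sumEv_per (ν : ℝ) (L : List Term) (I : Set ℝ) : Per I (sumEv ν L) :=
  force_per ν (fun _ => L) 0 I

theorem sumEv_smooth (ν : ℝ) {L : List Term} (h : ∀ τ ∈ L, τ.Valid) : Smooth (sumEv ν L) :=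
  (sumEv_contDiff ν h).contDiffOn

theorem sumEv_cont (ν : ℝ) {L : List Term} (h : ∀ τ ∈ L, τ.Valid) (I : Set ℝ) : Cont I (sumEv ν L) :=
  (sumEv_contDiff ν h).continuous.continuousOn

theorem sumEv_hasDx (ν : ℝ) {L : List Term} (h : ∀ τ ∈ L, τ.Valid) (I : Set ℝ) :
    HasDx I (sumEv ν L) := fun i =>
  ⟨fun t _ x => (sumEv_hasLineDerivAt ν i h t x).lineDifferentiableAt,
    dx_sumEv ν i h ▸ sumEv_cont ν (flatMap_Dx_ok i h) I⟩

theorem sumEv_hasDt (ν : ℝ) {L : List Term} (h : ∀ τ ∈ L, τ.Valid) {I : Set ℝ}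
    (hI : UniqueDiffOn ℝ I) : HasDt I (sumEv ν L) :=
  ⟨fun t _ x => (sumEv_hasDerivAt ν h t x).differentiableAt.differentiableWithinAt,
    (sumEv_cont ν (flatMap_Dt_ok h) I).congr fun p hp => dt_sumEv ν hI h hp.1 p.2⟩

/-! ### The classical solution -/

theorem flatMap_Dx_eq_nil (i : Fin 3) {L : List Term} (h : ∀ τ ∈ L, τ.2.2.2.2.2 i = []) :
    L.flatMap (Term.Dx i) = [] :=
  List.flatMap_eq_nil_iff.2 fun τ hτ => by simp [Term.Dx, h τ hτ, dProd]

/-- An admissible field whose `j`-th component does not depend on `x_j` and that vanishes at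
time `0` solves the system with zero pressure and the force `nsForce`. -/
theorem isClassical_nsForce (ν : ℝ) {U : Fin 3 → List Term} (hU : ∀ j, ∀ τ ∈ U j, τ.Valid)
    (hj : ∀ j, ∀ τ ∈ U j, τ.2.2.2.2.2 j = []) (h0 : ∀ j x, force ν U j 0 x = 0) {I : Set ℝ}
    (hI : UniqueDiffOn ℝ I) :
    IsClassical ν (force ν (nsForce U)) I (force ν U) (fun _ _ => 0) where
  reg_u j := ⟨sumEv_per ν _ I, sumEv_cont ν (hU j) I, sumEv_hasDt ν (hU j) hI,
    sumEv_hasDx ν (hU j) I, fun i => by
      rw [force_eq, dx_sumEv ν i (hU j)]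
      exact sumEv_hasDx ν (flatMap_Dx_ok i (hU j)) I⟩
  reg_p := ⟨sumEv_per ν [] I, sumEv_cont ν (L := []) (by simp) I,
    sumEv_hasDx ν (L := []) (by simp) I⟩
  mean t _ := by simp
  eqn j t ht x := by
    have e0 : dx j (fun _ _ => (0 : ℝ)) t x = 0 :=
      congrFun (congrFun (dx_sumEv ν j (L := []) (by simp)) t) x
    simp only [force_eq, e0, dt_sumEv ν hI (hU j) ht, dx_sumEv ν _ (hU j),
      dx_sumEv ν _ (flatMap_Dx_ok _ (hU j)), Fin.sum_univ_three, nsForce, nsPart, sumEv_append,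
      sumEv_mulL, sumEv_negNu]
    ring
  div t _ x := by
    refine Finset.sum_eq_zero fun i _ => ?_
    rw [force_eq, dx_sumEv ν i (hU i), flatMap_Dx_eq_nil i (hj i), sumEv_nil]
  init := h0

end Vale.Agent.Q113
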